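import Vale.Agent.P354XG.GHP

/-!
The ring of germs of families of smooth complex functions, with the coordinate derivations.
-/

open scoped ContDiff
open Set Filter Topology

namespace Vale.Agent.P354XG

/-- The chart (t, r, xi1, xi2) of the bundle of dyads. -/
abbrev E6 : Type := ℝ × ℝ × ℂ × ℂ

variable {J E : Type} [NormedAddCommGroup E] [NormedSpace ℝ E]

/-- A filter on J x E whose sets can be taken open in the second variable. -/
class Loc (G : Filter (J × E)) : Prop where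
  ev : ∀ P : J × E → Prop, (∀ᶠ p in G, P p) → ∀ᶠ p in G, ∀ᶠ y in 𝓝 p.2, P (p.1, y)

/-- Eventually in j along F, near the set K j. -/
def nb (F : Filter J) (K : J → Set E) : Filter (J × E) :=
  F.bind fun j => map (Prod.mk j) (𝓝ˢ (K j))

omit [NormedSpace ℝ E] in
theorem ev_nb {F : Filter J} {K : J → Set E} {P : J × E → Prop} :
    (∀ᶠ p in nb F K, P p) ↔ ∀ᶠ j in F, ∀ x ∈ K j, ∀ᶠ y in 𝓝 x, P (j, y) := by
  simp only [nb, eventually_bind, eventually_map, eventually_nhdsSet_iff_forall]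

instance (F : Filter J) (K : J → Set E) : Loc (nb F K) where
  ev P h := by
    rw [ev_nb] at h ⊢
    exact h.mono fun j hj x hx => (hj x hx).eventually_nhds

omit [NormedSpace ℝ E] in
theorem ev_nb_on {F : Filter J} {K : J → Set E} {P : J × E → Prop} (h : ∀ᶠ p in nb F K, P p) :
    ∀ᶠ j in F, ∀ x ∈ K j, P (j, x) :=
  (ev_nb.1 h).mono fun _ hj x hx => (hj x hx).self_of_nhds

/-- The slice of a family. -/
def sl (f : J × E → ℂ) (j : J) : E → ℂ := fun y => f (j, y)

/-- Smooth in the second variable, eventually along G. -/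
def SmF (G : Filter (J × E)) (f : J × E → ℂ) : Prop := ∀ᶠ p in G, ContDiffAt ℝ ∞ (sl f p.1) p.2

/-- The derivative in the direction v. -/
noncomputable def pdF (v : E) (f : J × E → ℂ) : J × E → ℂ := fun p => fderiv ℝ (sl f p.1) p.2 v

variable {G : Filter (J × E)}

theorem SmF.add {f g : J × E → ℂ} (hf : SmF G f) (hg : SmF G g) : SmF G (f + g) :=
  (hf.and hg).mono fun _ h => h.1.add h.2
theorem SmF.mul {f g : J × E → ℂ} (hf : SmF G f) (hg : SmF G g) : SmF G (f * g) :=
  (hf.and hg).mono fun _ h => h.1.mul h.2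
theorem smF_const (c : J → ℂ) : SmF G fun p => c p.1 :=
  Eventually.of_forall fun p => contDiffAt_const (c := c p.1)
theorem SmF.conj {f : J × E → ℂ} (hf : SmF G f) : SmF G fun p => starRingEnd ℂ (f p) :=
  hf.mono fun _ h => Complex.conjCLE.contDiff.contDiffAt.comp _ h
theorem SmF.pd {f : J × E → ℂ} (hf : SmF G f) (v : E) : SmF G (pdF v f) :=
  hf.mono fun _ h => (h.fderiv_right (m := ∞) (by simp)).clm_apply contDiffAt_const

variable [Loc G]

omit [NormedSpace ℝ E] in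
theorem sl_congr {f g : J × E → ℂ} (h : f =ᶠ[G] g) : ∀ᶠ p in G, sl f p.1 =ᶠ[𝓝 p.2] sl g p.1 :=
  Loc.ev _ h

theorem SmF.congr {f g : J × E → ℂ} (hf : SmF G f) (h : f =ᶠ[G] g) : SmF G g :=
  (hf.and (sl_congr h)).mono fun _ h => h.1.congr_of_eventuallyEq h.2.symm

theorem pdF_congr {f g : J × E → ℂ} (h : f =ᶠ[G] g) (v : E) : pdF v f =ᶠ[G] pdF v g :=
  (sl_congr h).mono fun _ h => by simp only [pdF, h.fderiv_eq]

omit [Loc G] in
theorem SmF.neg {f : J × E → ℂ} (hf : SmF G f) : SmF G (-f) := hf.mono fun _ h => h.neg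

variable (G) in
/-- The germs with a smooth representative. -/
def smSub : Subring (Germ G ℂ) where
  carrier := {a | ∃ f, SmF G f ∧ (f : Germ G ℂ) = a}
  mul_mem' := by
    rintro _ _ ⟨f, hf, rfl⟩ ⟨g, hg, rfl⟩
    exact ⟨f * g, hf.mul hg, rfl⟩
  add_mem' := by
    rintro _ _ ⟨f, hf, rfl⟩ ⟨g, hg, rfl⟩
    exact ⟨f + g, hf.add hg, rfl⟩
  one_mem' := ⟨fun _ => 1, smF_const fun _ => 1, rfl⟩
  zero_mem' := ⟨fun _ => 0, smF_const fun _ => 0, rfl⟩
  neg_mem' := by
    rintro _ ⟨f, hf, rfl⟩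
    exact ⟨-f, hf.neg, rfl⟩

/-- The ring. -/
def Sm (G : Filter (J × E)) [Loc G] : Type := smSub G

noncomputable instance : CommRing (Sm G) := inferInstanceAs (CommRing (smSub G))

/-- The class of a smooth family. -/
def mk (f : J × E → ℂ) (hf : SmF G f) : Sm G := ⟨f, f, hf, rfl⟩

variable (G) in
/-- The constants. -/
noncomputable def cHom : ℂ →+* Sm G where
  toFun z := mk (fun _ => z) (smF_const fun _ => z)
  map_one' := rfl
  map_zero' := rfl
  map_add' _ _ := rfl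
  map_mul' _ _ := rfl

noncomputable instance : Algebra ℂ (Sm G) := (cHom G).toAlgebra

theorem mk_surj (a : Sm G) : ∃ f hf, mk f hf = a := by
  obtain ⟨_, f, hf, rfl⟩ := a
  exact ⟨f, hf, rfl⟩

theorem mk_eq {f g : J × E → ℂ} {hf : SmF G f} {hg : SmF G g} :
    mk f hf = mk g hg ↔ f =ᶠ[G] g := by
  exact Subtype.ext_iff.trans Germ.coe_eq

/-- A representative. -/
noncomputable def rep (a : Sm G) : J × E → ℂ := a.2.choose
theorem rep_sm (a : Sm G) : SmF G (rep a) := a.2.choose_spec.1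
theorem mk_rep (a : Sm G) : mk (rep a) (rep_sm a) = a := Subtype.ext a.2.choose_spec.2
theorem rep_mk (f : J × E → ℂ) (hf : SmF G f) : rep (mk f hf) =ᶠ[G] f := mk_eq.1 (mk_rep _)
theorem ext_rep {a b : Sm G} (h : rep a =ᶠ[G] rep b) : a = b := by
  rw [← mk_rep a, ← mk_rep b]; exact mk_eq.2 h

theorem mk_add {f g : J × E → ℂ} (hf : SmF G f) (hg : SmF G g) :
    mk f hf + mk g hg = mk (f + g) (hf.add hg) := rfl
theorem mk_mul {f g : J × E → ℂ} (hf : SmF G f) (hg : SmF G g) :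
    mk f hf * mk g hg = mk (f * g) (hf.mul hg) := rfl
theorem mk_alg (z : ℂ) : algebraMap ℂ (Sm G) z = mk (fun _ => z) (smF_const fun _ => z) := rfl
theorem mk_zero : (0 : Sm G) = mk (fun _ => 0) (smF_const fun _ => 0) := rfl
theorem mk_one : (1 : Sm G) = mk (fun _ => 1) (smF_const fun _ => 1) := rfl

theorem rep_add (a b : Sm G) : rep (a + b) =ᶠ[G] rep a + rep b := by
  conv_lhs => rw [← mk_rep a, ← mk_rep b, mk_add]
  exact rep_mk _ _
theorem rep_mul (a b : Sm G) : rep (a * b) =ᶠ[G] rep a * rep b := by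
  conv_lhs => rw [← mk_rep a, ← mk_rep b, mk_mul]
  exact rep_mk _ _
theorem rep_alg (z : ℂ) : rep (algebraMap ℂ (Sm G) z) =ᶠ[G] fun _ => z :=
  rep_mk _ (smF_const fun _ => z)
theorem rep_zero : rep (0 : Sm G) =ᶠ[G] fun _ => 0 := rep_mk _ (smF_const fun _ => 0)
theorem rep_one : rep (1 : Sm G) =ᶠ[G] fun _ => 1 := rep_mk _ (smF_const fun _ => 1)
theorem rep_neg (a : Sm G) : rep (-a) =ᶠ[G] -rep a := by
  have h := rep_add (-a) a
  rw [neg_add_cancel] at h
  filter_upwards [h, rep_zero (G := G)] with p h1 h2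
  rw [h2] at h1
  exact eq_neg_of_add_eq_zero_left h1.symm
theorem rep_sub (a b : Sm G) : rep (a - b) =ᶠ[G] rep a - rep b := by
  filter_upwards [rep_add a (-b), rep_neg b] with p h1 h2
  rw [sub_eq_add_neg, h1, Pi.add_apply, h2, Pi.sub_apply, sub_eq_add_neg, Pi.neg_apply]

omit [Loc G] in
theorem SmF.diff {f : J × E → ℂ} (hf : SmF G f) :
    ∀ᶠ p in G, DifferentiableAt ℝ (sl f p.1) p.2 := hf.mono fun _ h => h.differentiableAt (by simp)

noncomputable def pd0 (v : E) (a : Sm G) : Sm G := mk (pdF v (rep a)) ((rep_sm a).pd v)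

theorem pd0_mk (v : E) (f : J × E → ℂ) (hf : SmF G f) :
    pd0 v (mk f hf) = mk (pdF v f) (hf.pd v) := mk_eq.2 (pdF_congr (rep_mk f hf) v)

theorem pd0_add (v : E) (a b : Sm G) : pd0 v (a + b) = pd0 v a + pd0 v b := by
  obtain ⟨f, hf, rfl⟩ := mk_surj a
  obtain ⟨g, hg, rfl⟩ := mk_surj b
  simp only [mk_add, pd0_mk]
  refine mk_eq.2 ((hf.diff.and hg.diff).mono fun p h => ?_)
  have : fderiv ℝ (sl (f + g) p.1) p.2 = _ := fderiv_add h.1 h.2
  simp only [pdF, this]
  rfl

theorem pd0_mul (v : E) (a b : Sm G) : pd0 v (a * b) = a * pd0 v b + b * pd0 v a := by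
  obtain ⟨f, hf, rfl⟩ := mk_surj a
  obtain ⟨g, hg, rfl⟩ := mk_surj b
  simp only [mk_add, mk_mul, pd0_mk]
  refine mk_eq.2 ((hf.diff.and hg.diff).mono fun p h => ?_)
  have : fderiv ℝ (sl (f * g) p.1) p.2 = _ := fderiv_mul h.1 h.2
  simp only [pdF, this]
  rfl

/-- A family which depends on j only. -/
def cst (c : J → ℂ) : Sm G := mk (fun p => c p.1) (smF_const c)

theorem pd0_cst (v : E) (c : J → ℂ) : pd0 v (cst c : Sm G) = 0 := by
  rw [cst, pd0_mk, mk_zero]
  refine mk_eq.2 (Eventually.of_forall fun p => ?_)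
  have : sl (fun p : J × E => c p.1) p.1 = fun _ => c p.1 := rfl
  simp [pdF, this]

/-- The coordinate derivations. -/
noncomputable def pd (v : E) : Der (Sm G) :=
  Derivation.mk'
    { toFun := pd0 v
      map_add' := pd0_add v
      map_smul' := fun z a => by
        have : pd0 v (algebraMap ℂ (Sm G) z) = 0 := pd0_cst v fun _ => z
        simp only [Algebra.smul_def, pd0_mul, this, mul_zero, add_zero, RingHom.id_apply] }
    fun a b => pd0_mul v a b

theorem pd_mk (v : E) (f : J × E → ℂ) (hf : SmF G f) :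
    pd v (mk f hf) = mk (pdF v f) (hf.pd v) := pd0_mk v f hf

theorem pd_cst (v : E) (c : J → ℂ) : pd v (cst c : Sm G) = 0 := pd0_cst v c

theorem rep_pd (v : E) (a : Sm G) : rep (pd v a) =ᶠ[G] pdF v (rep a) :=
  rep_mk _ ((rep_sm a).pd v)

theorem pd_comm (v w : E) (a : Sm G) : pd v (pd w a) = pd w (pd v a) := by
  obtain ⟨f, hf, rfl⟩ := mk_surj a
  simp only [pd_mk]
  refine mk_eq.2 (hf.mono fun p h => ?_)
  have hd : DifferentiableAt ℝ (fderiv ℝ (sl f p.1)) p.2 :=
    (h.fderiv_right (m := 1) (by norm_cast)).differentiableAt (by simp)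
  have e : ∀ u u' : E, pdF u (pdF u' f) p = fderiv ℝ (fderiv ℝ (sl f p.1)) p.2 u u' := by
    intro u u'
    have : sl (pdF u' f) p.1 = fun y => fderiv ℝ (sl f p.1) y u' := rfl
    simp only [pdF, this]
    rw [fderiv_clm_apply hd (differentiableAt_const _)]
    simp
  rw [e, e]
  exact (h.isSymmSndFDerivAt (by simp; norm_cast)).eq v w

theorem pd_add_dir (v w : E) (a : Sm G) : pd (v + w) a = pd v a + pd w a := by
  obtain ⟨f, hf, rfl⟩ := mk_surj a
  simp only [pd_mk, mk_add]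
  exact mk_eq.2 (Eventually.of_forall fun p => by simp [pdF])

theorem pd_smul_dir (s : ℝ) (v : E) (a : Sm G) :
    pd (s • v) a = algebraMap ℂ (Sm G) s * pd v a := by
  obtain ⟨f, hf, rfl⟩ := mk_surj a
  simp only [pd_mk, mk_alg, mk_mul]
  exact mk_eq.2 (Eventually.of_forall fun p => by simp [pdF])

noncomputable def cj0 (a : Sm G) : Sm G := mk (fun p => starRingEnd ℂ (rep a p)) (rep_sm a).conj

theorem cj0_mk (f : J × E → ℂ) (hf : SmF G f) :
    cj0 (mk f hf) = mk (fun p => starRingEnd ℂ (f p)) hf.conj :=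
  mk_eq.2 ((rep_mk f hf).mono fun _ h => by simp only [h])

/-- The conjugation. -/
noncomputable def cj : Sm G →+* Sm G where
  toFun := cj0
  map_one' := by rw [mk_one, cj0_mk]; exact mk_eq.2 (Eventually.of_forall fun p => by simp)
  map_zero' := by rw [mk_zero, cj0_mk]; exact mk_eq.2 (Eventually.of_forall fun p => by simp)
  map_add' a b := by
    obtain ⟨f, hf, rfl⟩ := mk_surj a
    obtain ⟨g, hg, rfl⟩ := mk_surj b
    simp only [mk_add, cj0_mk]
    exact mk_eq.2 (Eventually.of_forall fun p => by simp)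
  map_mul' a b := by
    obtain ⟨f, hf, rfl⟩ := mk_surj a
    obtain ⟨g, hg, rfl⟩ := mk_surj b
    simp only [mk_mul, cj0_mk]
    exact mk_eq.2 (Eventually.of_forall fun p => by simp)

theorem cj_mk (f : J × E → ℂ) (hf : SmF G f) :
    cj (mk f hf) = mk (fun p => starRingEnd ℂ (f p)) hf.conj := cj0_mk f hf

theorem rep_cj (a : Sm G) : rep (cj a) =ᶠ[G] fun p => starRingEnd ℂ (rep a p) :=
  rep_mk _ (rep_sm a).conj

theorem cj_cj (a : Sm G) : cj (cj a) = a := by
  obtain ⟨f, hf, rfl⟩ := mk_surj a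
  simp only [cj_mk]
  exact mk_eq.2 (Eventually.of_forall fun p => by simp)

theorem cj_alg (z : ℂ) : cj (algebraMap ℂ (Sm G) z) = algebraMap ℂ (Sm G) (starRingEnd ℂ z) := by
  simp only [mk_alg, cj_mk]

theorem cj_pd (v : E) (a : Sm G) : cj (pd v a) = pd v (cj a) := by
  obtain ⟨f, hf, rfl⟩ := mk_surj a
  simp only [cj_mk, pd_mk]
  refine mk_eq.2 (hf.diff.mono fun p h => ?_)
  have : fderiv ℝ (sl (fun p => starRingEnd ℂ (f p)) p.1) p.2 = _ :=
    (Complex.conjCLE.hasFDerivAt.comp p.2 h.hasFDerivAt).fderiv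
  simp only [pdF, this]
  rfl

/-- A function of the point only. -/
def fn (φ : E → ℂ) (h : ∀ᶠ p in G, ContDiffAt ℝ ∞ φ p.2) : Sm G := mk (fun p => φ p.2) h

theorem pd_clm (v : E) (φ : E →L[ℝ] ℂ) :
    pd v (fn φ (Eventually.of_forall fun _ => φ.contDiff.contDiffAt) : Sm G) =
      algebraMap ℂ (Sm G) (φ v) := by
  refine (pd_mk v _ _).trans ?_
  rw [mk_alg]
  refine mk_eq.2 (Eventually.of_forall fun p => ?_)
  have : sl (fun p : J × E => φ p.2) p.1 = φ := rfl
  simp [pdF, this]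

/-- A germ without zeros is a unit. -/
theorem isUnit_of_ne {a : Sm G} (h : ∀ᶠ p in G, rep a p ≠ 0) : IsUnit a := by
  have hs : SmF G fun p => (rep a p)⁻¹ := ((rep_sm a).and h).mono fun _ h => h.1.inv h.2
  refine IsUnit.of_mul_eq_one (mk _ hs) ?_
  refine ext_rep ?_
  filter_upwards [h, rep_mk _ hs, rep_mul a (mk _ hs), rep_one (G := G)] with p h1 h2 h3 h4
  rw [h3, h4, Pi.mul_apply, h2, mul_inv_cancel₀ h1]

end Vale.Agent.P354XG
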