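import Vale.Agent.P354XG.Hat

/-!
The GHP equations hold for a weighted null frame of a vacuum geometry.
-/

set_option linter.unusedSimpArgs false

namespace Vale.Agent.P354XG
namespace Geo

variable {A : Type*} [CommRing A] [Algebra ℂ A] {S : Geo A}

/-- The components of the curvature in a null frame. -/
structure Tab (S : Geo A) (l n m mb : Vec A) (p0 p1 p2 p3 p4 : A) : Prop where
  s1 : ∀ Z U, S.W n l Z U = -S.W l n Z U
  s2 : ∀ Z U, S.W m l Z U = -S.W l m Z U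
  s3 : ∀ Z U, S.W mb l Z U = -S.W l mb Z U
  s4 : ∀ Z U, S.W m n Z U = -S.W n m Z U
  s5 : ∀ Z U, S.W mb n Z U = -S.W n mb Z U
  s6 : ∀ Z U, S.W mb m Z U = -S.W m mb Z U
  t1 : ∀ Z U, S.W Z U n l = -S.W Z U l n
  t2 : ∀ Z U, S.W Z U m l = -S.W Z U l m
  t3 : ∀ Z U, S.W Z U mb l = -S.W Z U l mb
  t4 : ∀ Z U, S.W Z U m n = -S.W Z U n m
  t5 : ∀ Z U, S.W Z U mb n = -S.W Z U n mb
  t6 : ∀ Z U, S.W Z U mb m = -S.W Z U m mb
  a1 : S.W l n l n = -(p2 + S.c p2)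
  a2 : S.W l n l m = -p1
  a3 : S.W l n l mb = -S.c p1
  a4 : S.W l n n m = S.c p3
  a5 : S.W l n n mb = p3
  a6 : S.W l n m mb = p2 - S.c p2
  b1 : S.W l m l n = -p1
  b2 : S.W l m l m = -p0
  b3 : S.W l m l mb = 0
  b4 : S.W l m n m = 0
  b5 : S.W l m n mb = p2
  b6 : S.W l m m mb = p1
  c1 : S.W l mb l n = -S.c p1
  c2 : S.W l mb l m = 0
  c3 : S.W l mb l mb = -S.c p0
  c4 : S.W l mb n m = S.c p2
  c5 : S.W l mb n mb = 0
  c6 : S.W l mb m mb = -S.c p1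
  d1 : S.W n m l n = S.c p3
  d2 : S.W n m l m = 0
  d3 : S.W n m l mb = S.c p2
  d4 : S.W n m n m = -S.c p4
  d5 : S.W n m n mb = 0
  d6 : S.W n m m mb = S.c p3
  e1 : S.W n mb l n = p3
  e2 : S.W n mb l m = p2
  e3 : S.W n mb l mb = 0
  e4 : S.W n mb n m = 0
  e5 : S.W n mb n mb = -p4
  e6 : S.W n mb m mb = -p3
  f1 : S.W m mb l n = p2 - S.c p2
  f2 : S.W m mb l m = p1
  f3 : S.W m mb l mb = -S.c p1
  f4 : S.W m mb n m = S.c p3
  f5 : S.W m mb n mb = -p3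
  f6 : S.W m mb m mb = -(p2 + S.c p2)

theorem Null.tab {l n m mb : Vec A} (h : S.Is) (N : Null S l n m mb) :
    Tab S l n m mb (-S.W l m l m) (-S.W l n l m) (S.W n mb l m) (-S.W n l n mb)
      (-S.W n mb n mb) := by
  have N' := N.pr h
  have cw : ∀ X Y Z U, S.c (-S.W X Y Z U) = -S.W (S.cv X) (S.cv Y) (S.cv Z) (S.cv U) := by
    intro X Y Z U; rw [map_neg, h.c_W]
  have a3 : S.W l n l mb = -S.c (-S.W l n l m) := by rw [cw, N.c_l, N.c_n, N.c_m, neg_neg]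
  have a5 : S.W l n n mb = -S.W n l n mb := Is.W_anti12 _ _ _ _
  have a4 : S.W l n n m = S.c (-S.W n l n mb) := by
    rw [cw, N.c_l, N.c_n, N.c_mb h]; exact Is.W_anti12 _ _ _ _
  have b6 := N.w_lm_mmb h
  have e6 : S.W n mb m mb = - -S.W n l n mb := by rw [h.W_anti34, N'.w_lm_mmb h]
  have c6 : S.W l mb m mb = -S.c (-S.W l n l m) := by
    rw [← b6, h.c_W, N.c_l, N.c_m, N.c_mb h, h.W_anti34]
  have d6 : S.W n m m mb = S.c (-S.W n l n mb) := by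
    rw [← N'.w_lm_mmb h, h.c_W, N.c_n, N.c_m, N.c_mb h]
  have b4 := N.w_lm_nm h
  have c5 : S.W l mb n mb = 0 := by rw [h.W_pair]; exact N'.w_lm_nm h
  have e4 := N'.w_lm_lmb h
  have b3 := N.w_lm_lmb h
  have d3 := (N.c_p2 h).symm
  refine ⟨fun _ _ => Is.W_anti12 _ _ _ _, fun _ _ => Is.W_anti12 _ _ _ _,
    fun _ _ => Is.W_anti12 _ _ _ _, fun _ _ => Is.W_anti12 _ _ _ _,
    fun _ _ => Is.W_anti12 _ _ _ _, fun _ _ => Is.W_anti12 _ _ _ _, fun _ _ => h.W_anti34 _ _ _ _,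
    fun _ _ => h.W_anti34 _ _ _ _, fun _ _ => h.W_anti34 _ _ _ _, fun _ _ => h.W_anti34 _ _ _ _,
    fun _ _ => h.W_anti34 _ _ _ _, fun _ _ => h.W_anti34 _ _ _ _,
    N.w_ln_ln h, (neg_neg _).symm, a3, a4, a5, N.w_ln_mmb h,
    ?_, (neg_neg _).symm, b3, b4, h.W_pair _ _ _ _, b6,
    ?_, ?_, ?_, ?_, c5, c6,
    ?_, ?_, d3, ?_, ?_, d6,
    ?_, rfl, ?_, e4, (neg_neg _).symm, e6,
    ?_, ?_, ?_, ?_, ?_, N.w_mmb_mmb h⟩
  · rw [h.W_pair, neg_neg]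
  · rw [h.W_pair, a3]
  · rw [h.W_pair, b3]
  · rw [cw, N.c_l, N.c_m, neg_neg]
  · rw [h.W_pair, d3]
  · rw [h.W_pair, a4]
  · rw [h.W_pair, b4]
  · rw [cw, N.c_n, N.c_mb h, neg_neg]
  · rw [h.W_pair, e4]
  · rw [h.W_pair, a5]
  · rw [h.W_pair, c5]
  · rw [h.W_pair, N.w_ln_mmb h]
  · rw [h.W_pair, b6]
  · rw [h.W_pair, c6]
  · rw [h.W_pair, d6]
  · rw [h.W_pair, e6]

namespace Hat
variable {u0 u1 u2 u3 : Op A} {D Db : Der A} {p2 : A} (h : S.Is) (T : Hat S u0 u1 u2 u3 D Db p2)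
include h T

theorem half : (mk' S u0 u1 u2 u3 D Db p2).Half := by
  have N := T.null
  have cj3 := h.cj_symm T.cj2
  have vD := T.vD h
  have vDb := T.vDb h
  have Tb := N.tab h
  rw [← T.p2] at Tb
  obtain ⟨G, hG⟩ : ∃ G, G = mk' S u0 u1 u2 u3 D Db p2 := ⟨_, rfl⟩
  have ck : ∀ {u w : Op A} (_ : Cj S u w) (Y Z : Vec A),
      S.c (-S.dot (S.nab u Y) Z) = -S.dot (S.nab w (S.cv Y)) (S.cv Z) := by
    intro u w e Y Z
    rw [map_neg, h.c_dot, h.c_nab e]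
  obtain ⟨l0, n0, m0, b0⟩ := N.table h u0 T.g0 (k1 := G.ka) (k2 := S.c G.ka) (k3 := G.ta')
    (k4 := S.c G.ta') (by rw [hG]; rfl) (by rw [hG]; exact (ck T.cj0 _ _).trans (by rw [N.c_l, N.c_m]))
    (by rw [hG]; rfl) (by rw [hG]; exact (ck T.cj0 _ _).trans (by rw [N.c_n, N.c_mb h]))
  obtain ⟨l1, n1, m1, b1⟩ := N.table h u1 T.g1 (k1 := G.ta) (k2 := S.c G.ta) (k3 := G.ka')
    (k4 := S.c G.ka') (by rw [hG]; rfl) (by rw [hG]; exact (ck T.cj1 _ _).trans (by rw [N.c_l, N.c_m]))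
    (by rw [hG]; rfl) (by rw [hG]; exact (ck T.cj1 _ _).trans (by rw [N.c_n, N.c_mb h]))
  obtain ⟨l2, n2, m2, b2⟩ := N.table h u2 T.g2 (k1 := G.si) (k2 := S.c G.rh) (k3 := G.rh')
    (k4 := S.c G.si') (by rw [hG]; rfl) (by rw [hG]; exact (ck cj3 _ _).trans (by rw [N.c_l, N.c_m]))
    (by rw [hG]; rfl) (by rw [hG]; exact (ck cj3 _ _).trans (by rw [N.c_n, N.c_mb h]))
  obtain ⟨l3, n3, m3, b3⟩ := N.table h u3 T.g3 (k1 := G.rh) (k2 := S.c G.si) (k3 := G.si')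
    (k4 := S.c G.rh') (by rw [hG]; rfl) (by rw [hG]; exact (ck T.cj2 _ _).trans (by rw [N.c_l, N.c_m]))
    (by rw [hG]; rfl) (by rw [hG]; exact (ck T.cj2 _ _).trans (by rw [N.c_n, N.c_mb h]))
  have hP0 : -S.W u0.X u2.X u0.X u2.X = G.P0 := by rw [hG]; rfl
  have hP1 : -S.W u0.X u1.X u0.X u2.X = G.P1 := by rw [hG]; rfl
  have hP3 : -S.W u1.X u0.X u1.X u3.X = G.P3 := by rw [hG]; rfl
  have hP4 : -S.W u1.X u3.X u1.X u3.X = G.P4 := by rw [hG]; rfl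
  have hP2 : p2 = G.P2 := by rw [hG]; rfl
  rw [hP0, hP1, hP3, hP4, hP2] at Tb
  have hc : G.c = S.c := by rw [hG]; rfl
  have hth : G.th = S.act u0 := by rw [hG]; rfl
  have htp : G.tp = S.act u1 := by rw [hG]; rfl
  have het : G.et = S.act u2 := by rw [hG]; rfl
  have hep : G.ep = S.act u3 := by rw [hG]; rfl
  have hH : G.H = D := by rw [hG]; rfl
  have hHb : G.Hb = Db := by rw [hG]; rfl
  have wk : ∀ {D : Der A} (_ : Vert S D) {u : Op A} {w w1 w2 : A} (_ : Wt D u w) {Y Z : Vec A}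
      (_ : dv D Y = w1 • Y) (_ : dv D Z = w2 • Z) (_ : S.act u w1 = 0),
      D (-S.dot (S.nab u Y) Z) = (w + w1 + w2) * -S.dot (S.nab u Y) Z := by
    intro D v u w w1 w2 hu Y Z hY hZ e
    rw [D_neg, v.dot, v.nab hu, hY, hZ, nab_smul, e]
    simp only [dot_add_left, dot_smul_left, dot_smul_right]
    ring
  have ww : ∀ {D : Der A} (_ : Vert S D) {w1 w2 w3 w4 : A} {X Y Z U : Vec A}
      (_ : dv D X = w1 • X) (_ : dv D Y = w2 • Y) (_ : dv D Z = w3 • Z) (_ : dv D U = w4 • U),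
      D (S.W X Y Z U) = (w1 + w2 + w3 + w4) * S.W X Y Z U := by
    intro D v w1 w2 w3 w4 X Y Z U h1 h2 h3 h4
    rw [v.W, h1, h2, h3, h4, W_smul1, W_smul2, W_smul3, W_smul4]
    ring
  have one : ∀ u : Op A, S.act u 1 = 0 := fun u => D_one _
  obtain ⟨φ01, ψ01, c01, k01⟩ := T.pair h u0 u1 0 0 (S.c G.ta - G.ta') (G.ta - S.c G.ta')
    (by rw [n0, l1]; module)
  obtain ⟨φ02, ψ02, c02, k02⟩ := T.pair h u0 u2 (-S.c G.ta') (-G.ka) (S.c G.rh) G.si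
    (by rw [m0, l2]; module)
  obtain ⟨φ03, ψ03, -, k03⟩ := T.pair h u0 u3 (-G.ta') (-S.c G.ka) (S.c G.si) G.rh
    (by rw [b0, l3]; module)
  obtain ⟨φ12, ψ12, -, k12⟩ := T.pair h u1 u2 (-S.c G.ka') (-G.ta) G.rh' (S.c G.si')
    (by rw [m1, n2]; module)
  obtain ⟨φ13, ψ13, -, k13⟩ := T.pair h u1 u3 (-G.ka') (-S.c G.ta) G.si' (S.c G.rh')
    (by rw [b1, n3]; module)
  obtain ⟨φ23, ψ23, c23, k23⟩ := T.pair h u2 u3 (S.c G.rh' - G.rh') (G.rh - S.c G.rh) 0 0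
    (by rw [b2, m3]; module)
  have x1 := k01 u0.X u1.X
  have x2 := k01 u2.X u3.X
  have x3 := k02 u0.X u1.X
  have x4 := k02 u2.X u3.X
  have x5 := k23 u0.X u1.X
  have x6 := k23 u2.X u3.X
  have y1 := k03 u0.X u2.X
  have y2 := k02 u0.X u2.X
  have y3 := k01 u0.X u2.X
  have y4 := k23 u0.X u2.X
  have y5 := k12 u0.X u2.X
  have y6 := k13 u0.X u2.X
  have z1 := h.bianW u0 u2 u3 u0.X u2.X
  have z2 := h.bianW u0 u1 u3 u0.X u2.X
  have z3 := h.bianW u0 u2 u3 u1.X u3.X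
  have z4 := h.bianW u0 u1 u3 u1.X u3.X
  simp only [l0, n0, m0, b0, l1, n1, m1, b1, l2, n2, m2, b2, l3, n3, m3, b3, nab_sub, nab_neg,
    nab_smul, T.w0.X, T.w2.X, T.v0.X, T.v2.X, dot_add_left, dot_sub_left, dot_neg_left,
    dot_smul_left, smul_sub, smul_neg, N.ll, N.nn, N.mm, N.ln, N.lm, N.nm, N.mmb, N.mbmb h,
    N.lmb h, N.nmb h, N.nl h, N.ml h, N.mn h, N.mbl h, N.mbn h, N.mbm h, Tb.a1, Tb.a2, Tb.a6,
    Tb.b1, Tb.b2, Tb.b6, Tb.c2, Tb.d2, Tb.e2, Tb.f1, Tb.f2, Tb.f6]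
    at x1 x2 x3 x4 x5 x6 y1 y2 y3 y4 y5 y6
  simp only [l0, n0, m0, b0, l1, n1, m1, b1, l2, n2, m2, b2, l3, n3, m3, b3, W_sub2, W_neg2,
    W_smul2, W_sub3, W_neg3, W_smul3, W_sub4, W_neg4, W_smul4, h.W_diag12, h.W_diag34,
    Tb.s1, Tb.s2, Tb.s3, Tb.s4, Tb.s5, Tb.s6, Tb.t1, Tb.t2, Tb.t3, Tb.t4, Tb.t5, Tb.t6,
    Tb.a1, Tb.a2, Tb.a3, Tb.a4, Tb.a5, Tb.a6, Tb.b1, Tb.b2, Tb.b3, Tb.b4, Tb.b5, Tb.b6,
    Tb.c1, Tb.c2, Tb.c3, Tb.c4, Tb.c5, Tb.c6, Tb.d1, Tb.d2, Tb.d3, Tb.d4, Tb.d5, Tb.d6,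
    Tb.e1, Tb.e2, Tb.e3, Tb.e4, Tb.e5, Tb.e6, Tb.f1, Tb.f2, Tb.f3, Tb.f4, Tb.f5, Tb.f6,
    D_neg, D_zero] at z1 z2 z3 z4
  have f01 : φ01 = -(G.ka * G.ka' - G.ta * G.ta' + G.P2) := by
    rw [← sub_eq_zero]; apply h.half; linear_combination x1 - x2
  have g01 : ψ01 = -(S.c G.ka * S.c G.ka' - S.c G.ta * S.c G.ta' + S.c G.P2) := by
    rw [← sub_eq_zero]; apply h.half; linear_combination x1 + x2
  have f02 : φ02 = -(G.rh' * G.ka - G.ta' * G.si + G.P1) := by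
    rw [← sub_eq_zero]; apply h.half; linear_combination x3 - x4
  have g02 : ψ02 = -(S.c G.si' * S.c G.ka - S.c G.rh * S.c G.ta') := by
    rw [← sub_eq_zero]; apply h.half; linear_combination x3 + x4
  have f23 : φ23 = G.rh * G.rh' - G.si * G.si' + G.P2 := by
    rw [← sub_eq_zero]; apply h.half; linear_combination x5 - x6
  have g23 : ψ23 = -(S.c G.rh * S.c G.rh' - S.c G.si * S.c G.si' + S.c G.P2) := by
    rw [← sub_eq_zero]; apply h.half; linear_combination x5 + x6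
  have hka : G.ka = -S.dot (S.nab u0 u0.X) u2.X := by rw [hG]; rfl
  have hsi : G.si = -S.dot (S.nab u2 u0.X) u2.X := by rw [hG]; rfl
  have hrh : G.rh = -S.dot (S.nab u3 u0.X) u2.X := by rw [hG]; rfl
  have hta : G.ta = -S.dot (S.nab u1 u0.X) u2.X := by rw [hG]; rfl
  rw [← hG]
  constructor <;> simp only [hc, hth, htp, het, hep, hH, hHb]
  · exact h.cc
  · exact h.calg
  · exact h.c_act T.cj0
  · exact h.c_act T.cj2
  · exact T.c_D h
  · exact T.D_Db h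
  · intro f; rw [vD.act T.w0, one_mul]
  · intro f; rw [vD.act T.w2, one_mul]
  · rw [hka, wk vD T.w0 T.w0.X T.w2.X (one _)]; ring
  · rw [hka, wk vDb T.v0 T.v0.X T.v2.X (one _)]; ring
  · rw [hsi, wk vD T.w2 T.w0.X T.w2.X (one _)]; ring
  · rw [hsi, wk vDb T.v2 T.v0.X T.v2.X (one _)]; ring
  · rw [hrh, wk vD T.w3 T.w0.X T.w2.X (one _)]; ring
  · rw [hrh, wk vDb T.v3 T.v0.X T.v2.X (one _)]; ring
  · rw [hta, wk vD T.w1 T.w0.X T.w2.X (one _)]; ring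
  · rw [hta, wk vDb T.v1 T.v0.X T.v2.X (one _)]; ring
  · rw [← hP0, D_neg, ww vD T.w0.X T.w2.X T.w0.X T.w2.X]; ring
  · rw [← hP0, D_neg, ww vDb T.v0.X T.v2.X T.v0.X T.v2.X]; ring
  · rw [← hP1, D_neg, ww vD T.w0.X T.w1.X T.w0.X T.w2.X]; ring
  · rw [← hP1, D_neg, ww vDb T.v0.X T.v1.X T.v0.X T.v2.X]; ring
  · rw [← hP2, T.p2, ww vD T.w1.X T.w3.X T.w0.X T.w2.X]; ring
  · rw [← hP2, T.p2, ww vDb T.v1.X T.v3.X T.v0.X T.v2.X]; ring
  · intro f; have := c01 f; rw [f01, g01] at this; linear_combination this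
  · intro f; have := c02 f; rw [f02, g02] at this; linear_combination this
  · intro f; have := c23 f; rw [f23, g23] at this; linear_combination this
  · linear_combination -y1
  · linear_combination -y2
  · linear_combination -y3
  · linear_combination -y4
  · linear_combination y5
  · linear_combination y6
  · linear_combination z1
  · linear_combination z2
  · linear_combination -z3
  · linear_combination -z4

theorem is : (mk' S u0 u1 u2 u3 D Db p2).Is :=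
  ⟨T.half h, by rw [mk'_pr]; exact (T.pr h).half h⟩

end Hat

/-- One half. -/
noncomputable def hf (A : Type*) [CommRing A] [Algebra ℂ A] : A := algebraMap ℂ A (1 / 2)

theorem two_hf : 2 * hf A = 1 := by
  rw [hf, ← map_ofNat (algebraMap ℂ A) 2, ← map_mul]; norm_num

/-- The horizontal lift of X in the GHP gauge of the frame. -/
noncomputable def hat (S : Geo A) (l n m mb X : Vec A) : Op A where
  X := X
  a := hf A * (S.dot (S.nab ⟨X, 0, 0⟩ l) n - S.dot (S.nab ⟨X, 0, 0⟩ m) mb)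
  b := hf A * (S.dot (S.nab ⟨X, 0, 0⟩ l) n + S.dot (S.nab ⟨X, 0, 0⟩ m) mb)

/-- A null frame with the GHP weights. -/
structure WNull (S : Geo A) (l n m mb : Vec A) : Prop extends Null S l n m mb where
  H_l : dv S.H l = l
  H_n : dv S.H n = -n
  H_m : dv S.H m = m
  Hb_m : dv S.Hb m = -m

/-- The GHP data of a weighted null frame. -/
noncomputable def ghp (S : Geo A) (l n m mb : Vec A) : GHP A :=
  mk' S (hat S l n m mb l) (hat S l n m mb n) (hat S l n m mb m) (hat S l n m mb mb) S.H S.Hb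
    (S.W n mb l m)

namespace WNull
variable {l n m mb : Vec A} (h : S.Is) (N : WNull S l n m mb)
include h N

omit N in
theorem c_dv (Z : Vec A) : S.cv (dv S.H Z) = dv S.Hb (S.cv Z) := funext fun d => h.c_H (Z d)
omit N in
theorem c_dvb (Z : Vec A) : S.cv (dv S.Hb Z) = dv S.H (S.cv Z) := funext fun d => h.c_Hb (Z d)
omit N h in
theorem cv_neg (Z : Vec A) : S.cv (-Z) = -S.cv Z := funext fun d => map_neg S.c (Z d)

theorem Hb_l : dv S.Hb l = l := by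
  have := congrArg S.cv N.H_l
  rwa [c_dv h, N.c_l] at this
theorem Hb_n : dv S.Hb n = -n := by
  have := congrArg S.cv N.H_n
  rwa [c_dv h, cv_neg, N.c_n] at this
theorem Hb_mb : dv S.Hb mb = mb := by
  have := congrArg S.cv N.H_m
  rwa [c_dv h, N.c_m] at this
theorem H_mb : dv S.H mb = -mb := by
  have := congrArg S.cv N.Hb_m
  rwa [c_dvb h, cv_neg, N.c_m] at this

theorem cj_hat {X Y : Vec A} (e : S.cv X = Y) : Cj S (hat S l n m mb X) (hat S l n m mb Y) := by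
  have e0 : Cj S ⟨X, 0, 0⟩ ⟨Y, 0, 0⟩ := ⟨e, map_zero _, map_zero _⟩
  have c2 : S.c (hf A) = hf A := by rw [hf, h.calg, map_div₀, map_one, map_ofNat]
  have f := h.dot_flip ⟨Y, 0, 0⟩ (Y := mb) (Z := m) (by rw [N.toNull.mbm h, D_one])
  refine ⟨e, ?_, ?_⟩ <;>
    simp only [hat, map_mul, map_sub, map_add, c2, h.c_dot, h.c_nab e0, N.c_l, N.c_n, N.c_m,
      N.toNull.c_mb h, f] <;> ring

omit h N in
theorem wt_hat {D : Der A} (v : Vert S D) {X : Vec A} {w s : A} (e : dv D X = w • X)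
    (hl : dv D l = l) (hn : dv D n = -n) (hm : dv D m = s • m) (hb : dv D mb = -s • mb)
    (hs : ∀ u, S.act u s = 0) : Wt D (hat S l n m mb X) w := by
  have e0 : Wt D ⟨X, 0, 0⟩ w := ⟨e, by simp, by simp⟩
  have c2 : D (hf A) = 0 := D_alg _ _
  refine ⟨e, ?_, ?_⟩ <;>
    simp only [hat, D_mul, D_sub, D_add, c2, v.dot, v.nab e0, hl, hn, hm, hb, nab_smul, hs,
      dot_add_left, dot_smul_left, dot_smul_right, dot_neg_right] <;> ring

theorem gauge (X : Vec A) : S.dot (S.nab (hat S l n m mb X) l) n = 0 ∧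
    S.dot (S.nab (hat S l n m mb X) m) mb = 0 := by
  have e : ∀ Z, S.nab (hat S l n m mb X) Z = S.nab ⟨X, 0, 0⟩ Z +
      (hat S l n m mb X).a • dv S.H Z + (hat S l n m mb X).b • dv S.Hb Z := by
    intro Z
    funext d
    have : (hat S l n m mb X).X = X := rfl
    simp only [nab, dv, act_apply, this, Pi.add_apply, Pi.smul_apply, smul_eq_mul]
    ring
  simp only [e, N.H_l, N.Hb_l h, N.H_m, N.Hb_m, dot_add_left, dot_smul_left, dot_neg_left, N.ln,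
    N.mmb]
  simp only [hat]
  constructor
  · linear_combination -S.dot (S.nab ⟨X, 0, 0⟩ l) n * two_hf (A := A)
  · linear_combination -S.dot (S.nab ⟨X, 0, 0⟩ m) mb * two_hf (A := A)

theorem toHat : Hat S (hat S l n m mb l) (hat S l n m mb n) (hat S l n m mb m)
    (hat S l n m mb mb) S.H S.Hb (S.W n mb l m) := by
  have wH : ∀ {X : Vec A} {w : A}, dv S.H X = w • X → Wt S.H (hat S l n m mb X) w :=
    fun e => wt_hat h.vertH e N.H_l N.H_n (s := 1) (by rw [N.H_m, one_smul])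
      (by rw [N.H_mb h, neg_smul, one_smul]) fun _ => D_one _
  have wB : ∀ {X : Vec A} {w : A}, dv S.Hb X = w • X → Wt S.Hb (hat S l n m mb X) w :=
    fun e => wt_hat h.vertHb e (N.Hb_l h) (N.Hb_n h) (s := -1) (by rw [N.Hb_m, neg_one_smul])
      (by rw [N.Hb_mb h, neg_neg, one_smul]) fun _ => by rw [D_neg, D_one, neg_zero]
  exact ⟨N.toNull, N.cj_hat h N.c_l, N.cj_hat h N.c_n, N.cj_hat h N.c_m, Or.inl ⟨rfl, rfl⟩,
    wH (by rw [N.H_l, one_smul]), wH (by rw [N.H_n, neg_one_smul]), wH (by rw [N.H_m, one_smul]),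
    wH (by rw [N.H_mb h, neg_one_smul]), wB (by rw [N.Hb_l h, one_smul]),
    wB (by rw [N.Hb_n h, neg_one_smul]), wB (by rw [N.Hb_m, neg_one_smul]),
    wB (by rw [N.Hb_mb h, one_smul]), N.gauge h _, N.gauge h _, N.gauge h _, N.gauge h _, rfl⟩

/-- The GHP equations. -/
theorem is : (ghp S l n m mb).Is := (N.toHat h).is h

end WNull
end Geo
end Vale.Agent.P354XG
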