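import Vale.Agent.P354XG.Ring

/-!
Families whose derivatives are bounded, or dominated by a weight, on the sets K j.
-/

open scoped ContDiff
open Set Filter Topology

namespace Vale.Agent.P354XG

variable {J E : Type} [NormedAddCommGroup E] [NormedSpace ℝ E] {F : Filter J} {K : J → Set E}

/-- A weight: nonnegative and increasing in the order k. -/
structure Wgt (μ : ℕ → J → ℝ) : Prop where
  nonneg : ∀ k j, 0 ≤ μ k j
  mono : ∀ k k' j, k ≤ k' → μ k j ≤ μ k' j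

/-- The weight one. -/
def w1 (J : Type) : ℕ → J → ℝ := fun _ _ => 1

theorem wgt_one : Wgt (w1 J) := ⟨fun _ _ => zero_le_one, fun _ _ _ _ => le_rfl⟩

theorem Wgt.mul {μ ν : ℕ → J → ℝ} (h : Wgt μ) (h' : Wgt ν) : Wgt (μ * ν) :=
  ⟨fun k j => mul_nonneg (h.nonneg k j) (h'.nonneg k j), fun k k' j e =>
    mul_le_mul (h.mono k k' j e) (h'.mono k k' j e) (h'.nonneg k j) (h.nonneg k' j)⟩

theorem Wgt.add {μ ν : ℕ → J → ℝ} (h : Wgt μ) (h' : Wgt ν) : Wgt (μ + ν) :=
  ⟨fun k j => add_nonneg (h.nonneg k j) (h'.nonneg k j), fun k k' j e =>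
    add_le_add (h.mono k k' j e) (h'.mono k k' j e)⟩

/-- The values of a are dominated by the weight. -/
def Dom0 (μ : ℕ → J → ℝ) (a : Sm (nb F K)) : Prop :=
  ∃ k C, 0 ≤ C ∧ ∀ᶠ j in F, ∀ x ∈ K j, ‖rep a (j, x)‖ ≤ C * μ k j

/-- Iterated derivatives. -/
noncomputable def pdw {G : Filter (J × E)} [Loc G] : List E → Sm G → Sm G
  | [], a => a
  | v :: w, a => pdw w (pd v a)

/-- All derivatives of a are dominated by the weight. -/
def Dom (μ : ℕ → J → ℝ) (a : Sm (nb F K)) : Prop := ∀ w : List E, Dom0 μ (pdw w a)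

/-- All derivatives are bounded. -/
abbrev Bd (a : Sm (nb F K)) : Prop := Dom (w1 J) a

variable {μ ν : ℕ → J → ℝ} {a b : Sm (nb F K)}

theorem dom0_mk {f : J × E → ℂ} {hf : SmF (nb F K) f} (k : ℕ) (C : ℝ) (hC : 0 ≤ C)
    (h : ∀ᶠ j in F, ∀ x ∈ K j, ‖f (j, x)‖ ≤ C * μ k j) : Dom0 μ (mk f hf) :=
  ⟨k, C, hC, (h.and (ev_nb_on (rep_mk f hf))).mono fun _ h x hx => by
    rw [h.2 x hx]; exact h.1 x hx⟩

theorem Dom0.of_mk {f : J × E → ℂ} {hf : SmF (nb F K) f} (h : Dom0 μ (mk f hf)) :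
    ∃ k C, 0 ≤ C ∧ ∀ᶠ j in F, ∀ x ∈ K j, ‖f (j, x)‖ ≤ C * μ k j := by
  obtain ⟨k, C, hC, h⟩ := h
  exact ⟨k, C, hC, (h.and (ev_nb_on (rep_mk f hf))).mono fun _ h x hx => by
    rw [← h.2 x hx]; exact h.1 x hx⟩

theorem dom0_zero (hμ : Wgt μ) : Dom0 μ (0 : Sm (nb F K)) :=
  dom0_mk (hf := smF_const fun _ => 0) 0 0 le_rfl (Eventually.of_forall fun _ _ _ => by simp)

theorem Dom0.add (hμ : Wgt μ) (ha : Dom0 μ a) (hb : Dom0 μ b) : Dom0 μ (a + b) := by
  obtain ⟨k, C, hC, h⟩ := ha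
  obtain ⟨k', C', hC', h'⟩ := hb
  refine ⟨max k k', C + C', add_nonneg hC hC', ?_⟩
  filter_upwards [h, h', ev_nb_on (rep_add a b)] with j h1 h2 h3 x hx
  rw [h3 x hx]
  have e1 := mul_le_mul_of_nonneg_left (hμ.mono k _ j (le_max_left k k')) hC
  have e2 := mul_le_mul_of_nonneg_left (hμ.mono k' _ j (le_max_right k k')) hC'
  have := norm_add_le (rep a (j, x)) (rep b (j, x))
  have := h1 x hx
  have := h2 x hx
  simp only [Pi.add_apply]
  linarith

theorem Dom0.mul (hμ : Wgt μ) (hν : Wgt ν) (ha : Dom0 μ a) (hb : Dom0 ν b) :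
    Dom0 (μ * ν) (a * b) := by
  obtain ⟨k, C, hC, h⟩ := ha
  obtain ⟨k', C', hC', h'⟩ := hb
  refine ⟨max k k', C * C', mul_nonneg hC hC', ?_⟩
  filter_upwards [h, h', ev_nb_on (rep_mul a b)] with j h1 h2 h3 x hx
  rw [h3 x hx]
  have e1 := mul_le_mul_of_nonneg_left (hμ.mono k _ j (le_max_left k k')) hC
  have e2 := mul_le_mul_of_nonneg_left (hν.mono k' _ j (le_max_right k k')) hC'
  simp only [Pi.mul_apply, norm_mul]
  calc _ ≤ (C * μ (max k k') j) * (C' * ν (max k k') j) :=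
        mul_le_mul ((h1 x hx).trans e1) ((h2 x hx).trans e2) (norm_nonneg _)
          (mul_nonneg hC (hμ.nonneg _ _))
    _ = _ := by ring

theorem Dom0.mono (ha : Dom0 μ a) (h : ∀ k, ∃ k' C, 0 ≤ C ∧ ∀ᶠ j in F, μ k j ≤ C * ν k' j) :
    Dom0 ν a := by
  obtain ⟨k, C, hC, h1⟩ := ha
  obtain ⟨k', C', hC', h2⟩ := h k
  refine ⟨k', C * C', mul_nonneg hC hC', ?_⟩
  filter_upwards [h1, h2] with j h1 h2 x hx
  exact (h1 x hx).trans ((mul_le_mul_of_nonneg_left h2 hC).trans_eq (by ring))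

theorem Dom0.cj (ha : Dom0 μ a) : Dom0 μ (cj a) := by
  obtain ⟨k, C, hC, h⟩ := ha
  refine ⟨k, C, hC, ?_⟩
  filter_upwards [h, ev_nb_on (rep_cj a)] with j h1 h2 x hx
  rw [h2 x hx, Complex.norm_conj]
  exact h1 x hx

theorem dom0_cst (c : J → ℂ) (k : ℕ) (C : ℝ) (hC : 0 ≤ C) (h : ∀ᶠ j in F, ‖c j‖ ≤ C * μ k j) :
    Dom0 μ (cst c : Sm (nb F K)) := dom0_mk k C hC (h.mono fun _ h _ _ => h)

section
variable {G : Filter (J × E)} [Loc G]
theorem pdw_add (w : List E) (a b : Sm G) : pdw w (a + b) = pdw w a + pdw w b := by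
  induction w generalizing a b with
  | nil => rfl
  | cons v w ih => simp only [pdw, D_add, ih]
theorem pdw_zero (w : List E) : pdw w (0 : Sm G) = 0 := by
  induction w with
  | nil => rfl
  | cons v w ih => simp only [pdw, D_zero, ih]
theorem pdw_cj (w : List E) (a : Sm G) : pdw w (cj a) = cj (pdw w a) := by
  induction w generalizing a with
  | nil => rfl
  | cons v w ih => simp only [pdw, ← cj_pd, ih]
end

theorem Dom.dom0 (h : Dom μ a) : Dom0 μ a := h []
theorem Dom.pd (h : Dom μ a) (v : E) : Dom μ (pd v a) := fun w => h (v :: w)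

theorem dom_of (h0 : Dom0 μ a) (h : ∀ v, Dom μ (pd v a)) : Dom μ a
  | [] => h0
  | v :: w => h v w

/-- A set which is stable under the derivatives and whose elements have dominated values. -/
theorem dom_of_stable (S : Set (Sm (nb F K))) (h0 : ∀ a ∈ S, Dom0 μ a)
    (hs : ∀ a ∈ S, ∀ v, pd v a ∈ S) : ∀ a ∈ S, Dom μ a := by
  intro a ha w
  induction w generalizing a with
  | nil => exact h0 a ha
  | cons v w ih => exact ih _ (hs a ha v)

theorem dom_zero (hμ : Wgt μ) : Dom μ (0 : Sm (nb F K)) := fun w => by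
  rw [pdw_zero]; exact dom0_zero hμ

theorem Dom.add (hμ : Wgt μ) (ha : Dom μ a) (hb : Dom μ b) : Dom μ (a + b) := fun w => by
  rw [pdw_add]; exact (ha w).add hμ (hb w)

theorem Dom.mul (hμ : Wgt μ) (hν : Wgt ν) (ha : Dom μ a) (hb : Dom ν b) :
    Dom (μ * ν) (a * b) := by
  intro w
  induction w generalizing a b with
  | nil => exact ha.dom0.mul hμ hν hb.dom0
  | cons v w ih =>
    simp only [pdw, D_mul, pdw_add]
    refine (ih ha (hb.pd v)).add (hμ.mul hν) ?_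
    rw [mul_comm b]
    exact ih (ha.pd v) hb

theorem Dom.mono (ha : Dom μ a) (h : ∀ k, ∃ k' C, 0 ≤ C ∧ ∀ᶠ j in F, μ k j ≤ C * ν k' j) :
    Dom ν a := fun w => (ha w).mono h

theorem Dom.cj (ha : Dom μ a) : Dom μ (cj a) := fun w => by rw [pdw_cj]; exact (ha w).cj

theorem w1_mul (μ : ℕ → J → ℝ) : w1 J * μ = μ := by funext k j; simp [w1]

theorem Dom.bmul (hμ : Wgt μ) (ha : Bd a) (hb : Dom μ b) : Dom μ (a * b) := by
  simpa only [w1_mul] using Dom.mul wgt_one hμ ha hb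

theorem Dom0.bmul (hμ : Wgt μ) (ha : Dom0 (w1 J) a) (hb : Dom0 μ b) : Dom0 μ (a * b) := by
  simpa only [w1_mul] using Dom0.mul wgt_one hμ ha hb

theorem dom_cst (hμ : Wgt μ) (c : J → ℂ) (h : Dom0 μ (cst c : Sm (nb F K))) :
    Dom μ (cst c : Sm (nb F K)) :=
  dom_of h fun v => by rw [pd_cst]; exact dom_zero hμ

theorem bd_alg (z : ℂ) : Bd (algebraMap ℂ (Sm (nb F K)) z) :=
  dom_cst wgt_one (fun _ => z) (dom0_cst _ 0 ‖z‖ (norm_nonneg z)
    (Eventually.of_forall fun _ => by simp [w1]))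

theorem Dom.neg (hμ : Wgt μ) (ha : Dom μ a) : Dom μ (-a) := by
  have := Dom.bmul hμ (bd_alg (-1)) ha
  simpa only [map_neg, map_one, neg_one_mul] using this

theorem Dom.sub (hμ : Wgt μ) (ha : Dom μ a) (hb : Dom μ b) : Dom μ (a - b) := by
  rw [sub_eq_add_neg]; exact ha.add hμ (hb.neg hμ)

theorem Dom0.neg (hμ : Wgt μ) (ha : Dom0 μ a) : Dom0 μ (-a) := by
  have := Dom0.bmul hμ (bd_alg (-1)).dom0 ha
  simpa only [map_neg, map_one, neg_one_mul] using this

theorem Dom0.sub (hμ : Wgt μ) (ha : Dom0 μ a) (hb : Dom0 μ b) : Dom0 μ (a - b) := by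
  rw [sub_eq_add_neg]; exact ha.add hμ (hb.neg hμ)

theorem dom_sum {ι : Type*} (hμ : Wgt μ) (s : Finset ι) {f : ι → Sm (nb F K)}
    (h : ∀ i ∈ s, Dom μ (f i)) : Dom μ (∑ i ∈ s, f i) :=
  Finset.sum_induction f (Dom μ) (fun _ _ => Dom.add hμ) (dom_zero hμ) h

theorem dom0_sum {ι : Type*} (hμ : Wgt μ) (s : Finset ι) {f : ι → Sm (nb F K)}
    (h : ∀ i ∈ s, Dom0 μ (f i)) : Dom0 μ (∑ i ∈ s, f i) :=
  Finset.sum_induction f (Dom0 μ) (fun _ _ => Dom0.add hμ) (dom0_zero hμ) h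

variable (F K) in
/-- The algebra of bounded families. -/
def bdSub : Subalgebra ℂ (Sm (nb F K)) where
  carrier := {a | Bd a}
  mul_mem' ha hb := Dom.bmul wgt_one ha hb
  add_mem' ha hb := Dom.add wgt_one ha hb
  algebraMap_mem' := bd_alg

variable (F K) in
/-- The ideal of the bounded families which are dominated by μ. -/
def domI (hμ : Wgt μ) : Ideal (bdSub F K) where
  carrier := {a | Dom μ a.1}
  add_mem' ha hb := Dom.add hμ ha hb
  zero_mem' := dom_zero hμ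
  smul_mem' c _ ha := Dom.bmul hμ c.2 ha

/-- A derivation which keeps all the classes Dom μ. -/
def Keeps (D : Der (Sm (nb F K))) : Prop := ∀ μ, Wgt μ → ∀ a, Dom μ a → Dom μ (D a)

theorem keeps_pd (v : E) : Keeps (pd v : Der (Sm (nb F K))) := fun _ _ _ h => h.pd v
theorem Keeps.add {D D' : Der (Sm (nb F K))} (h : Keeps D) (h' : Keeps D') : Keeps (D + D') :=
  fun μ hμ a ha => (h μ hμ a ha).add hμ (h' μ hμ a ha)
theorem Keeps.smul {D : Der (Sm (nb F K))} (h : Keeps D) (hc : Bd a) : Keeps (a • D) :=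
  fun μ hμ b hb => Dom.bmul hμ hc (h μ hμ b hb)
theorem Keeps.neg {D : Der (Sm (nb F K))} (h : Keeps D) : Keeps (-D) :=
  fun μ hμ b hb => (h μ hμ b hb).neg hμ
theorem Keeps.sub {D D' : Der (Sm (nb F K))} (h : Keeps D) (h' : Keeps D') : Keeps (D - D') :=
  fun μ hμ a ha => (h μ hμ a ha).sub hμ (h' μ hμ a ha)
theorem keeps_zero : Keeps (0 : Der (Sm (nb F K))) := fun _ hμ _ _ => dom_zero hμ
theorem keeps_sum {ι : Type*} (s : Finset ι) {D : ι → Der (Sm (nb F K))}
    (h : ∀ i ∈ s, Keeps (D i)) : Keeps (∑ i ∈ s, D i) :=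
  Finset.sum_induction D Keeps (fun _ _ => Keeps.add) keeps_zero h

/-- The values are bounded below. -/
def Low (a : Sm (nb F K)) : Prop := ∃ c > 0, ∀ᶠ j in F, ∀ x ∈ K j, c ≤ ‖rep a (j, x)‖

theorem ev_of_on {P : ℂ → Prop} (hP : IsOpen {z | P z})
    (h : ∀ᶠ j in F, ∀ x ∈ K j, P (rep a (j, x))) : ∀ᶠ p in nb F K, P (rep a p) := by
  rw [ev_nb]
  filter_upwards [h, ev_nb_on (rep_sm a)] with j h1 h2 x hx
  exact (h2 x hx).continuousAt.eventually (hP.mem_nhds (h1 x hx))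

/-- The ring generated by the bounded families and by a set of generators with bounded values,
whose derivatives are in this ring, consists of bounded families. -/
theorem bd_closure (S : Set (Sm (nb F K))) (h0 : ∀ s ∈ S, Dom0 (w1 J) s)
    (hd : ∀ s ∈ S, ∀ v, pd v s ∈ Subring.closure (S ∪ {a | Bd a})) :
    ∀ s ∈ Subring.closure (S ∪ {a | Bd a}), Bd s := by
  have key : ∀ y ∈ Subring.closure (S ∪ {a | Bd a}), Dom0 (w1 J) y ∧
      ∀ v, pd v y ∈ Subring.closure (S ∪ {a | Bd a}) := by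
    intro y hy
    induction hy using Subring.closure_induction with
    | mem x hx =>
      rcases hx with hx | hx
      · exact ⟨h0 x hx, hd x hx⟩
      · exact ⟨Dom.dom0 hx, fun v => Subring.subset_closure (Or.inr (Dom.pd hx v))⟩
    | zero => exact ⟨dom0_zero wgt_one, fun v => by rw [D_zero]; exact zero_mem _⟩
    | one =>
      refine ⟨?_, fun v => by rw [D_one]; exact zero_mem _⟩
      simpa only [map_one] using (bd_alg (F := F) (K := K) 1).dom0
    | add x y hx hy h1 h2 =>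
      exact ⟨h1.1.add wgt_one h2.1, fun v => by rw [D_add]; exact add_mem (h1.2 v) (h2.2 v)⟩
    | neg x hx h1 => exact ⟨h1.1.neg wgt_one, fun v => by rw [D_neg]; exact neg_mem (h1.2 v)⟩
    | mul x y hx hy h1 h2 =>
      exact ⟨Dom0.bmul wgt_one h1.1 h2.1, fun v => by
        rw [D_mul]; exact add_mem (mul_mem hx (h2.2 v)) (mul_mem hy (h1.2 v))⟩
  exact dom_of_stable (Subring.closure (S ∪ {a | Bd a}) : Set _) (fun y hy => (key y hy).1)
    (fun y hy => (key y hy).2)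

/-- A bounded family which is bounded below has a bounded inverse. -/
theorem Low.inv (ha : Bd a) (h : Low a) : ∃ b, Bd b ∧ a * b = 1 := by
  obtain ⟨c, hc, h⟩ := h
  obtain ⟨b, hb⟩ := (isUnit_of_ne (a := a) (ev_of_on (P := fun z => z ≠ 0) isOpen_ne
    (h.mono fun j h x hx e => by
      have := h x hx
      rw [e, norm_zero] at this
      exact absurd this (not_le.2 hc)))).exists_right_inv
  have b0 : Dom0 (w1 J) b := by
    refine ⟨0, c⁻¹, by positivity, ?_⟩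
    filter_upwards [h, ev_nb_on (rep_mul a b), ev_nb_on (rep_one (G := nb F K))] with j h1 h2 h3
      x hx
    have e : ‖rep a (j, x)‖ * ‖rep b (j, x)‖ = 1 := by
      rw [← norm_mul, ← Pi.mul_apply, ← h2 x hx, hb, h3 x hx, norm_one]
    rw [w1, mul_one, ← one_div, le_div_iff₀ hc, ← e, mul_comm]
    exact mul_le_mul_of_nonneg_right (h1 x hx) (norm_nonneg _)
  have hb' : b ∈ Subring.closure ({b} ∪ {a | Bd a}) := Subring.subset_closure (Or.inl rfl)
  refine ⟨b, bd_closure {b} (fun s hs => hs ▸ b0) (fun s hs v => ?_) b hb', hb⟩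
  rw [mem_singleton_iff.1 hs]
  have e := congrArg (pd v) hb
  rw [D_mul, D_one] at e
  have : pd v b = -(b * b * pd v a) := by linear_combination b * e - pd v b * hb
  rw [this]
  exact neg_mem (mul_mem (mul_mem hb' hb') (Subring.subset_closure (Or.inr (ha.pd v))))

end Vale.Agent.P354XG
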