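import Vale.Agent.P354XG.GHP

/-!
Morphisms of GHP algebras and the quotient by a differential ideal.
-/

namespace Vale.Agent.P354XG
namespace GHP

variable {A B : Type*} [CommRing A] [Algebra ℂ A] [CommRing B] [Algebra ℂ B]

/-- φ intertwines the two structures. -/
structure Hom (G : GHP A) (G' : GHP B) (φ : A →ₐ[ℂ] B) : Prop where
  c : ∀ f, φ (G.c f) = G'.c (φ f)
  th : ∀ f, φ (G.th f) = G'.th (φ f)
  tp : ∀ f, φ (G.tp f) = G'.tp (φ f)
  et : ∀ f, φ (G.et f) = G'.et (φ f)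
  ep : ∀ f, φ (G.ep f) = G'.ep (φ f)
  H : ∀ f, φ (G.H f) = G'.H (φ f)
  Hb : ∀ f, φ (G.Hb f) = G'.Hb (φ f)
  ka : φ G.ka = G'.ka
  si : φ G.si = G'.si
  rh : φ G.rh = G'.rh
  ta : φ G.ta = G'.ta
  ka' : φ G.ka' = G'.ka'
  si' : φ G.si' = G'.si'
  rh' : φ G.rh' = G'.rh'
  ta' : φ G.ta' = G'.ta'
  P0 : φ G.P0 = G'.P0
  P1 : φ G.P1 = G'.P1
  P2 : φ G.P2 = G'.P2
  P3 : φ G.P3 = G'.P3
  P4 : φ G.P4 = G'.P4

variable {G : GHP A} {G' : GHP B} {φ : A →ₐ[ℂ] B}

theorem Hom.pr (m : Hom G G' φ) : Hom G.pr G'.pr φ where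
  c := m.c
  th := m.tp
  tp := m.th
  et := m.ep
  ep := m.et
  H f := by simp only [GHP.pr, Derivation.neg_apply, map_neg, m.H]
  Hb f := by simp only [GHP.pr, Derivation.neg_apply, map_neg, m.Hb]
  ka := m.ka'
  si := m.si'
  rh := m.rh'
  ta := m.ta'
  ka' := m.ka
  si' := m.si
  rh' := m.rh
  ta' := m.ta
  P0 := m.P4
  P1 := m.P3
  P2 := m.P2
  P3 := m.P1
  P4 := m.P0

theorem Hom.half (m : Hom G G' φ) (hs : Function.Surjective φ) (h : G.Half) : G'.Half := by
  have key : ∀ {x y : A}, x = y → φ x = φ y := fun e => by rw [e]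
  constructor
  case calg =>
    intro z
    have := key (h.calg z)
    rwa [m.c, φ.commutes, φ.commutes] at this
  all_goals
    try (intro f; obtain ⟨f, rfl⟩ := hs f)
    first
    | simpa only [m.c] using key (h.cc f)
    | simpa only [m.c, m.th] using key (h.c_th f)
    | simpa only [m.c, m.et, m.ep] using key (h.c_et f)
    | simpa only [m.c, m.H, m.Hb] using key (h.c_H f)
    | simpa only [m.H, m.Hb] using key (h.H_Hb f)
    | simpa only [map_add, m.H, m.th] using key (h.H_th f)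
    | simpa only [map_add, m.H, m.et] using key (h.H_et f)
    | simpa only [map_mul, map_ofNat, m.H, m.ka] using key h.H_ka
    | simpa only [m.Hb, m.ka] using key h.Hb_ka
    | simpa only [map_mul, map_ofNat, m.H, m.si] using key h.H_si
    | simpa only [map_neg, m.Hb, m.si] using key h.Hb_si
    | simpa only [m.H, m.rh] using key h.H_rh
    | simpa only [m.Hb, m.rh] using key h.Hb_rh
    | simpa only [m.H, m.ta] using key h.H_ta
    | simpa only [map_neg, m.Hb, m.ta] using key h.Hb_ta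
    | simpa only [map_mul, map_ofNat, m.H, m.P0] using key h.H_P0
    | simpa only [map_zero, m.Hb, m.P0] using key h.Hb_P0
    | simpa only [map_mul, map_ofNat, m.H, m.P1] using key h.H_P1
    | simpa only [map_zero, m.Hb, m.P1] using key h.Hb_P1
    | simpa only [map_zero, m.H, m.P2] using key h.H_P2
    | simpa only [map_zero, m.Hb, m.P2] using key h.Hb_P2
    | simpa only [map_add, map_sub, map_mul, m.c, m.th, m.tp, m.et, m.ep, m.H, m.Hb, m.ka, m.si,
        m.rh, m.ta, m.ka', m.si', m.rh', m.ta', m.P2] using key (h.th_tp f)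
    | simpa only [map_add, map_sub, map_mul, m.c, m.th, m.tp, m.et, m.ep, m.H, m.Hb, m.ka, m.si,
        m.rh, m.ta, m.ka', m.si', m.rh', m.ta', m.P1] using key (h.th_et f)
    | simpa only [map_add, map_sub, map_mul, m.c, m.th, m.tp, m.et, m.ep, m.H, m.Hb, m.ka, m.si,
        m.rh, m.ta, m.ka', m.si', m.rh', m.ta', m.P2] using key (h.et_ep f)
    | simpa only [map_add, map_sub, map_mul, map_pow, m.c, m.th, m.tp, m.et, m.ep, m.ka, m.si,
        m.rh, m.ta, m.ka', m.si', m.rh', m.ta'] using key h.r1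
    | simpa only [map_add, map_sub, map_mul, map_pow, m.c, m.th, m.tp, m.et, m.ep, m.ka, m.si,
        m.rh, m.ta, m.ka', m.si', m.rh', m.ta', m.P0] using key h.r2
    | simpa only [map_add, map_sub, map_mul, map_pow, m.c, m.th, m.tp, m.et, m.ep, m.ka, m.si,
        m.rh, m.ta, m.ka', m.si', m.rh', m.ta', m.P1] using key h.r3
    | simpa only [map_add, map_sub, map_mul, map_pow, m.c, m.th, m.tp, m.et, m.ep, m.ka, m.si,
        m.rh, m.ta, m.ka', m.si', m.rh', m.ta', m.P1] using key h.r4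
    | simpa only [map_add, map_sub, map_mul, map_pow, map_neg, m.c, m.th, m.tp, m.et, m.ep, m.ka,
        m.si, m.rh, m.ta, m.ka', m.si', m.rh', m.ta'] using key h.r5
    | simpa only [map_add, map_sub, map_mul, map_pow, m.c, m.th, m.tp, m.et, m.ep, m.ka, m.si,
        m.rh, m.ta, m.ka', m.si', m.rh', m.ta', m.P2] using key h.r6
    | simpa only [map_add, map_sub, map_mul, map_ofNat, m.th, m.ep, m.ka, m.si', m.rh, m.ta',
        m.P0, m.P1, m.P2, m.P3, m.P4] using key h.b1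
    | simpa only [map_add, map_sub, map_mul, map_ofNat, m.th, m.ep, m.ka, m.si', m.rh, m.ta',
        m.P0, m.P1, m.P2, m.P3, m.P4] using key h.b2
    | simpa only [map_add, map_sub, map_mul, map_ofNat, m.th, m.ep, m.ka, m.si', m.rh, m.ta',
        m.P0, m.P1, m.P2, m.P3, m.P4] using key h.b3
    | simpa only [map_add, map_sub, map_mul, map_ofNat, m.th, m.ep, m.ka, m.si', m.rh, m.ta',
        m.P0, m.P1, m.P2, m.P3, m.P4] using key h.b4

/-- The equations pass to a surjective image. -/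
theorem Hom.is (m : Hom G G' φ) (hs : Function.Surjective φ) (h : G.Is) : G'.Is :=
  ⟨m.half hs h.h, m.pr.half hs h.p⟩

/-- An ideal which is stable under the conjugation and under the six derivations. -/
structure Stable (G : GHP A) (I : Ideal A) : Prop where
  c : ∀ f ∈ I, G.c f ∈ I
  th : ∀ f ∈ I, G.th f ∈ I
  tp : ∀ f ∈ I, G.tp f ∈ I
  et : ∀ f ∈ I, G.et f ∈ I
  ep : ∀ f ∈ I, G.ep f ∈ I
  H : ∀ f ∈ I, G.H f ∈ I
  Hb : ∀ f ∈ I, G.Hb f ∈ I

/-- A derivation on the quotient by a stable ideal. -/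
noncomputable def qd (I : Ideal A) (D : Der A) (hD : ∀ f ∈ I, D f ∈ I) : Der (A ⧸ I) :=
  Derivation.liftOfSurjective (f := Ideal.Quotient.mkₐ ℂ I) (Ideal.Quotient.mkₐ_surjective ℂ I)
    (d := D)
    (fun x hx => Ideal.Quotient.eq_zero_iff_mem.2 (hD x (Ideal.Quotient.eq_zero_iff_mem.1 hx)))

theorem qd_mk (I : Ideal A) (D : Der A) (hD : ∀ f ∈ I, D f ∈ I) (f : A) :
    qd I D hD (Ideal.Quotient.mkₐ ℂ I f) = Ideal.Quotient.mkₐ ℂ I (D f) :=
  Derivation.liftOfSurjective_apply (Ideal.Quotient.mkₐ_surjective ℂ I)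
    (fun x hx => Ideal.Quotient.eq_zero_iff_mem.2 (hD x (Ideal.Quotient.eq_zero_iff_mem.1 hx))) f

/-- The quotient structure. -/
noncomputable def quot (G : GHP A) (I : Ideal A) (s : Stable G I) : GHP (A ⧸ I) where
  c := Ideal.Quotient.lift I ((Ideal.Quotient.mk I).comp G.c)
    (fun f hf => Ideal.Quotient.eq_zero_iff_mem.2 (s.c f hf))
  th := qd I G.th s.th
  tp := qd I G.tp s.tp
  et := qd I G.et s.et
  ep := qd I G.ep s.ep
  H := qd I G.H s.H
  Hb := qd I G.Hb s.Hb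
  ka := Ideal.Quotient.mk I G.ka
  si := Ideal.Quotient.mk I G.si
  rh := Ideal.Quotient.mk I G.rh
  ta := Ideal.Quotient.mk I G.ta
  ka' := Ideal.Quotient.mk I G.ka'
  si' := Ideal.Quotient.mk I G.si'
  rh' := Ideal.Quotient.mk I G.rh'
  ta' := Ideal.Quotient.mk I G.ta'
  P0 := Ideal.Quotient.mk I G.P0
  P1 := Ideal.Quotient.mk I G.P1
  P2 := Ideal.Quotient.mk I G.P2
  P3 := Ideal.Quotient.mk I G.P3
  P4 := Ideal.Quotient.mk I G.P4

theorem hom_quot (G : GHP A) (I : Ideal A) (s : Stable G I) :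
    Hom G (G.quot I s) (Ideal.Quotient.mkₐ ℂ I) where
  c _ := rfl
  th f := (qd_mk I G.th s.th f).symm
  tp f := (qd_mk I G.tp s.tp f).symm
  et f := (qd_mk I G.et s.et f).symm
  ep f := (qd_mk I G.ep s.ep f).symm
  H f := (qd_mk I G.H s.H f).symm
  Hb f := (qd_mk I G.Hb s.Hb f).symm
  ka := rfl
  si := rfl
  rh := rfl
  ta := rfl
  ka' := rfl
  si' := rfl
  rh' := rfl
  ta' := rfl
  P0 := rfl
  P1 := rfl
  P2 := rfl
  P3 := rfl
  P4 := rfl

theorem Is.quot (h : G.Is) (I : Ideal A) (s : Stable G I) : (G.quot I s).Is :=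
  (hom_quot G I s).is (Ideal.Quotient.mkₐ_surjective ℂ I) h

/-- Exact type D in an adapted frame. -/
structure IsD (G : GHP A) : Prop where
  is : G.Is
  ka : G.ka = 0
  si : G.si = 0
  ka' : G.ka' = 0
  si' : G.si' = 0
  P0 : G.P0 = 0
  P1 : G.P1 = 0
  P3 : G.P3 = 0
  P4 : G.P4 = 0

theorem IsD.pr (h : G.IsD) : G.pr.IsD :=
  ⟨h.is.pr, h.ka', h.si', h.ka, h.si, h.P4, h.P3, h.P1, h.P0⟩

theorem three_unit : IsUnit (3 : A) := by
  have : IsUnit (algebraMap ℂ A 3) := (isUnit_iff_ne_zero.2 (by norm_num)).map _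
  simpa only [map_ofNat] using this

theorem two_unit : IsUnit (2 : A) := by
  have : IsUnit (algebraMap ℂ A 2) := (isUnit_iff_ne_zero.2 (by norm_num)).map _
  simpa only [map_ofNat] using this

/-- With P0 = P1 = 0 and P2 a unit, ka and si vanish (Goldberg-Sachs, easy direction). -/
theorem Is.ka_si (h : G.Is) (h0 : G.P0 = 0) (h1 : G.P1 = 0) (hu : IsUnit G.P2) :
    G.ka = 0 ∧ G.si = 0 := by
  have e1 := h.tr_ka h1
  have e2 := h.tr_si h1
  rw [h0, D_zero] at e1 e2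
  have u : IsUnit ((3 : A) * G.P2) := three_unit.mul hu
  constructor
  · apply u.mul_right_eq_zero.1; linear_combination e1
  · apply u.mul_right_eq_zero.1; linear_combination e2

theorem Is.isD (h : G.Is) (h0 : G.P0 = 0) (h1 : G.P1 = 0) (h3 : G.P3 = 0) (h4 : G.P4 = 0)
    (hu : IsUnit G.P2) : G.IsD :=
  ⟨h, (h.ka_si h0 h1 hu).1, (h.ka_si h0 h1 hu).2, (h.pr.ka_si h4 h3 hu).1,
    (h.pr.ka_si h4 h3 hu).2, h0, h1, h3, h4⟩

/-- The quotient by a stable ideal which contains P0, P1, P3, P4 is of exact type D. -/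
theorem Is.quot_isD (h : G.Is) (I : Ideal A) (s : Stable G I) (h0 : G.P0 ∈ I) (h1 : G.P1 ∈ I)
    (h3 : G.P3 ∈ I) (h4 : G.P4 ∈ I) (hu : IsUnit G.P2) : (G.quot I s).IsD :=
  (h.quot I s).isD (Ideal.Quotient.eq_zero_iff_mem.2 h0) (Ideal.Quotient.eq_zero_iff_mem.2 h1)
    (Ideal.Quotient.eq_zero_iff_mem.2 h3) (Ideal.Quotient.eq_zero_iff_mem.2 h4)
    (hu.map (Ideal.Quotient.mk I))

end GHP
end Vale.Agent.P354XG
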