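import Vale.Agent.P354NP.Ext
import Vale.Agent.P354NP.PD
import Vale.Agent.P354XR.Kerr

/-!
The abstract setting of the rigidity of Kerr: an algebra of exact type D which is close to Kerr,
with evaluation at a base point, a Gronwall lemma and periods of closed forms.
-/

namespace Vale.Agent.P354XG

open Vale.Agent.P354NP Vale.Agent.P354XR

variable {A B : Type} [CommRing A] [StarRing A] [Algebra ℂ A] [CommRing B] [StarRing B]
  [Algebra ℂ B]

/-- A homomorphism of algebras of type D. -/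
structure TH (T : TD A) (T' : TD B) (φ : A →ₐ[ℂ] B) : Prop where
  st : ∀ f, φ (star f) = star (φ f)
  D : ∀ a f, φ (T.D a f) = T'.D a (φ f)
  r : φ T.r = T'.r
  r2 : φ T.r2 = T'.r2
  t : φ T.t = T'.t
  t2 : φ T.t2 = T'.t2
  ze : φ T.ze = T'.ze
  zi : φ T.zi = T'.zi

theorem comp6 {α β : Type} (f : α → β) (a b c d e g : α) :
    f ∘ ![a, b, c, d, e, g] = ![f a, f b, f c, f d, f e, f g] := by
  funext i; fin_cases i <;> rfl

theorem TH.up {T : TD A} {T' : TD B} {φ : A →ₐ[ℂ] B} (h : TH T T' φ) (a b : Fin 6) :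
    φ ∘ T.up a b = T'.up a b := by
  have z : φ ∘ (0 : Fin 6 → A) = 0 := funext fun _ => map_zero φ
  fin_cases a <;> fin_cases b <;>
    simp only [TD.up, Fin.reduceFinMk, Matrix.cons_val, z, comp6,
      map_zero, map_neg, map_sub, map_add, map_mul, map_pow, map_one, h.st,
      h.r, h.r2, h.t, h.t2, h.zi]

theorem TH.cc {T : TD A} {T' : TD B} {φ : A →ₐ[ℂ] B} (h : TH T T' φ) (a b k : Fin 6) :
    φ (T.cc a b k) = T'.cc a b k := by
  rw [TD.cc, TD.cc, map_sub, ← h.up, ← h.up]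
  rfl

theorem TH.ext {T : TD A} {T' : TD B} {φ : A →ₐ[ℂ] B} (h : TH T T' φ) (m : Fin 6 → A)
    (a b : Fin 6) : φ (T.ext m a b) = T'.ext (fun k => φ (m k)) a b := by
  simp only [TD.ext, map_sub, map_sum, map_mul, h.D, h.cc]

theorem TH.comp {C : Type} [CommRing C] [StarRing C] [Algebra ℂ C] {T : TD A} {T' : TD B}
    {T'' : TD C} {φ : A →ₐ[ℂ] B} {ψ : B →ₐ[ℂ] C} (h : TH T T' φ) (h' : TH T' T'' ψ) :
    TH T T'' (ψ.comp φ) := by
  constructor <;> intros <;> simp only [AlgHom.comp_apply, h.st, h.D, h.r, h.r2, h.t, h.t2, h.ze,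
    h.zi, h'.st, h'.D, h'.r, h'.r2, h'.t, h'.t2, h'.ze, h'.zi]

/-- T is the algebra of the Kerr chart K. -/
structure IsK (T : TD A) (K : KC A) : Prop where
  is : K.Is
  c : ∀ f, K.c f = star f
  th : T.d0 = K.th
  tp : T.d1 = K.tp
  et : T.d2 = K.et
  ep : T.d3 = K.ep
  H : T.H = K.H
  B : T.Hb = K.B
  rh : T.r = K.rh
  rh2 : T.r2 = K.rh2
  ta : T.t = K.ta
  ta2 : T.t2 = K.ta2
  P2 : T.zi ^ 3 = K.P2

/-- The functions of the two charts are close. -/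
structure Cls (S : Ideal A) (K' K : KC A) : Prop where
  r : K'.r - K.r ∈ S
  x : K'.x - K.x ∈ S
  s : K'.s - K.s ∈ S
  N : K'.N - K.N ∈ S
  a : K'.a - K.a ∈ S
  M : K'.M - K.M ∈ S

/-- T is close to the Kerr chart K; S is the ideal of the small elements; ka is the real cube
root of -2 M. -/
structure Near (T : TD A) (K : KC A) (S : Ideal A) (ka : A) : Prop where
  is : K.Is
  c : ∀ f, K.c f = star f
  H : T.H = K.H
  B : T.Hb = K.B
  cS : ∀ f ∈ S, star f ∈ S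
  DS : ∀ a, ∀ f ∈ S, T.D a f ∈ S
  th : ∀ f, T.d0 f - K.th f ∈ S
  tp : ∀ f, T.d1 f - K.tp f ∈ S
  et : ∀ f, T.d2 f - K.et f ∈ S
  ep : ∀ f, T.d3 f - K.ep f ∈ S
  rh : T.r - K.rh ∈ S
  rh2 : T.r2 - K.rh2 ∈ S
  ta : T.t - K.ta ∈ S
  ta2 : T.t2 - K.ta2 ∈ S
  zi : T.zi - ka * K.z ∈ S
  ka3 : ka ^ 3 = -(2 * K.M)
  ska : star ka = ka
  kka : T.Const ka
  ka' : T.Const K.a
  kM : T.Const K.M
  ua : IsUnit K.a
  uM : IsUnit K.M
  ur : IsUnit K.r
  inv : ∀ s ∈ S, IsUnit (1 + s)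
  root : ∀ a ∈ S, ∀ b ∈ S, ∀ c ∈ S, ∃ z, 1 + z + a * z ^ 2 + b * z ^ 3 + c * z ^ 4 = 0

/-- The value at a base point on the equator, and the Gronwall lemma. -/
structure Ev (T : TD A) (K : KC A) (S : Ideal A) (ev : A →ₐ[ℂ] A) : Prop where
  st : ∀ f, ev (star f) = star (ev f)
  k : ∀ f, T.Const (ev f)
  ee : ∀ f, ev (ev f) = ev f
  S : ∀ f ∈ S, ev f ∈ S
  x : ev K.x = 0
  s : ev K.s = 1
  gron : ∀ (n : ℕ) (x : Fin n → A), (∀ a i, T.D a (x i) ∈ Ideal.span (Set.range x)) →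
    (∀ i, ev (x i) = 0) → ∀ i, x i = 0

theorem Ev.const {T : TD A} {K : KC A} {S : Ideal A} {ev : A →ₐ[ℂ] A} (h : Ev T K S ev) {c : A}
    (hc : ∀ a, T.D a c = 0) : ev c = c := by
  have k := h.k c
  have := h.gron 1 (fun _ => c - ev c) (fun a _ => by
    have : T.D a (ev c) = 0 := by fin_cases a; exacts [k.k0, k.k1, k.k2, k.k3, k.kH, k.kHb]
    rw [map_sub, hc, this, sub_zero]; exact zero_mem _) (fun _ => by rw [map_sub, h.ee, sub_self]) 0
  exact (sub_eq_zero.1 this).symm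

/-- The algebra of a smaller region. -/
structure Lc (T : TD A) (S : Ideal A) (B : Type) [CommRing B] [StarRing B] [Algebra ℂ B] where
  T' : TD B
  φ : A →ₐ[ℂ] B
  S' : Ideal B
  hom : TH T T' φ
  le : ∀ s ∈ S, φ s ∈ S'
  inv : ∀ s ∈ S', IsUnit (1 + s)

/-- The regions N (1 + x invertible), S (1 - x invertible), their intersection O and the period
along the equator. -/
structure Lp (T : TD A) (K : KC A) (S : Ideal A) (AN AS AO : Type) [CommRing AN] [StarRing AN]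
    [Algebra ℂ AN] [CommRing AS] [StarRing AS] [Algebra ℂ AS] [CommRing AO] [StarRing AO]
    [Algebra ℂ AO] where
  n : Lc T S AN
  s : Lc T S AS
  o : Lc T S AO
  ψn : AN →ₐ[ℂ] AO
  ψs : AS →ₐ[ℂ] AO
  hn : TH n.T' o.T' ψn
  hs : TH s.T' o.T' ψs
  cn : ∀ f, ψn (n.φ f) = o.φ f
  cs : ∀ f, ψs (s.φ f) = o.φ f
  un : IsUnit (n.φ (1 + K.x))
  us : IsUnit (s.φ (1 - K.x))
  per : (Fin 6 → AO) → A
  add : ∀ m m', per (m + m') = per m + per m'
  smul : ∀ c m, T.Const c → per (o.φ c • m) = c * per m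
  pn : ∀ (m : Fin 6 → AN) (c c' : A), (∀ a b, n.T'.ext m a b = 0) → T.Const c → T.Const c' →
    m 4 = n.φ c → m 5 = n.φ c' → per (fun a => ψn (m a)) = c - c'
  ps : ∀ m : Fin 6 → AS, (∀ a b, s.T'.ext m a b = 0) → per (fun a => ψs (m a)) = 0
  w : ∀ u v : AO, u * v = 1 → u - o.φ K.s ∈ o.S' → per (fun a => v * o.T'.D a u) = 1
  wb : ∀ u v : AO, u * v = 1 → u - o.φ K.sb ∈ o.S' → per (fun a => v * o.T'.D a u) = -1

/-- The algebraic part of the rigidity theorem. -/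
def ALG : Prop :=
  ∀ (A AN AS AO : Type) [CommRing A] [StarRing A] [Algebra ℂ A] [CommRing AN] [StarRing AN]
    [Algebra ℂ AN] [CommRing AS] [StarRing AS] [Algebra ℂ AS] [CommRing AO] [StarRing AO]
    [Algebra ℂ AO] (T : TD A) (K : KC A) (S : Ideal A) (ka : A) (ev : A →ₐ[ℂ] A),
    Near T K S ka → Ev T K S ev → Lp T K S AN AS AO → ∃ K' : KC A, IsK T K' ∧ Cls S K' K

end Vale.Agent.P354XG
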