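import Vale.Agent.P354XG.Quot

/-!
GHP structures on subalgebras and on dual numbers.
-/

set_option linter.unusedSimpArgs false

namespace Vale.Agent.P354XG

open TrivSqZeroExt

variable {A B : Type*} [CommRing A] [Algebra ℂ A] [CommRing B] [Algebra ℂ B]

/-- The restriction of a derivation to a stable subalgebra. -/
def subD (S : Subalgebra ℂ A) (D : Der A) (h : ∀ f ∈ S, D f ∈ S) : Der S :=
  Derivation.mk'
    { toFun := fun f => ⟨D f.1, h f.1 f.2⟩
      map_add' := fun a b => Subtype.ext (D_add D a.1 b.1)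
      map_smul' := fun z a => Subtype.ext (D.map_smul z a.1) }
    fun a b => Subtype.ext (D_mul D a.1 b.1)

theorem subD_val (S : Subalgebra ℂ A) (D : Der A) (h : ∀ f ∈ S, D f ∈ S) (f : S) :
    (subD S D h f : A) = D f := rfl

/-- The lift D(f0 + e f1) = D f0 + e (D f1 + [T, D] f0). -/
def dlift (T D : Der A) : Der (DualNumber A) :=
  Derivation.mk'
    { toFun := fun x => inl (D x.fst) + inr (D x.snd + (T (D x.fst) - D (T x.fst)))
      map_add' := fun a b => by ext <;> simp; ring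
      map_smul' := fun z a => by ext <;> simp [smul_sub] }
    fun a b => by
      ext
      · simp
      · simp [D_mul]; ring

@[simp] theorem dlift_fst (T D : Der A) (x : DualNumber A) : (dlift T D x).fst = D x.fst := by
  simp [dlift]
@[simp] theorem dlift_snd (T D : Der A) (x : DualNumber A) :
    (dlift T D x).snd = D x.snd + (T (D x.fst) - D (T x.fst)) := by simp [dlift]

/-- The first order jet f + e T f. -/
def jet (T : Der A) : A →ₐ[ℂ] DualNumber A where
  toFun f := inl f + inr (T f)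
  map_one' := by ext <;> simp
  map_zero' := by ext <;> simp
  map_add' a b := by ext <;> simp
  map_mul' a b := by ext <;> simp [D_mul]; ring
  commutes' z := by ext <;> simp [algebraMap_eq_inl']

@[simp] theorem jet_fst (T : Der A) (f : A) : (jet T f).fst = f := by simp [jet]
@[simp] theorem jet_snd (T : Der A) (f : A) : (jet T f).snd = T f := by simp [jet]

theorem dlift_jet (T D : Der A) (f : A) : dlift T D (jet T f) = jet T (D f) := by
  ext <;> simp

/-- A ring homomorphism on both components. -/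
def dmap (c : A →+* B) : DualNumber A →+* DualNumber B where
  toFun x := inl (c x.fst) + inr (c x.snd)
  map_one' := by ext <;> simp
  map_zero' := by ext <;> simp
  map_add' a b := by ext <;> simp
  map_mul' a b := by ext <;> simp

omit [Algebra ℂ A] [Algebra ℂ B] in
@[simp] theorem dmap_fst (c : A →+* B) (x : DualNumber A) : (dmap c x).fst = c x.fst := by
  simp [dmap]
omit [Algebra ℂ A] [Algebra ℂ B] in
@[simp] theorem dmap_snd (c : A →+* B) (x : DualNumber A) : (dmap c x).snd = c x.snd := by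
  simp [dmap]

theorem dual_gen (T : Der A) (x : DualNumber A) :
    ∃ a b, x = jet T a + DualNumber.eps * jet T b :=
  ⟨x.fst, x.snd - T x.fst, by ext <;> simp⟩

namespace GHP
variable {G : GHP A} {G' : GHP B} {φ : A →ₐ[ℂ] B}

/-- The equations pass to the source of an injective morphism. -/
theorem Hom.half_inj (m : Hom G G' φ) (hs : Function.Injective φ) (h : G'.Half) : G.Half := by
  constructor
  case calg =>
    intro z
    apply hs
    rw [m.c, φ.commutes, φ.commutes, h.calg]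
  all_goals
    intros
    apply hs
    simp only [map_add, map_sub, map_mul, map_neg, map_pow, map_ofNat, map_zero, m.c, m.th, m.tp,
      m.et, m.ep, m.H, m.Hb, m.ka, m.si, m.rh, m.ta, m.ka', m.si', m.rh', m.ta', m.P0, m.P1, m.P2,
      m.P3, m.P4]
  exacts [h.cc _, h.c_th _, h.c_et _, h.c_H _, h.H_Hb _, h.H_th _, h.H_et _, h.H_ka, h.Hb_ka,
    h.H_si, h.Hb_si, h.H_rh, h.Hb_rh, h.H_ta, h.Hb_ta, h.H_P0, h.Hb_P0, h.H_P1, h.Hb_P1, h.H_P2,
    h.Hb_P2, h.th_tp _, h.th_et _, h.et_ep _, h.r1, h.r2, h.r3, h.r4, h.r5, h.r6, h.b1, h.b2, h.b3,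
    h.b4]

theorem Hom.is_inj (m : Hom G G' φ) (hs : Function.Injective φ) (h : G'.Is) : G.Is :=
  ⟨m.half_inj hs h.h, m.pr.half_inj hs h.p⟩

/-- A subalgebra which is stable and contains the scalars. -/
structure In (G : GHP A) (S : Subalgebra ℂ A) : Prop where
  c : ∀ f ∈ S, G.c f ∈ S
  th : ∀ f ∈ S, G.th f ∈ S
  tp : ∀ f ∈ S, G.tp f ∈ S
  et : ∀ f ∈ S, G.et f ∈ S
  ep : ∀ f ∈ S, G.ep f ∈ S
  H : ∀ f ∈ S, G.H f ∈ S
  Hb : ∀ f ∈ S, G.Hb f ∈ S
  ka : G.ka ∈ S
  si : G.si ∈ S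
  rh : G.rh ∈ S
  ta : G.ta ∈ S
  ka' : G.ka' ∈ S
  si' : G.si' ∈ S
  rh' : G.rh' ∈ S
  ta' : G.ta' ∈ S
  P0 : G.P0 ∈ S
  P1 : G.P1 ∈ S
  P2 : G.P2 ∈ S
  P3 : G.P3 ∈ S
  P4 : G.P4 ∈ S

/-- The structure on the subalgebra. -/
def sub (G : GHP A) (S : Subalgebra ℂ A) (s : In G S) : GHP S where
  c := (G.c.comp S.toSubring.subtype).codRestrict S.toSubring fun f => s.c f.1 f.2
  th := subD S G.th s.th
  tp := subD S G.tp s.tp
  et := subD S G.et s.et
  ep := subD S G.ep s.ep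
  H := subD S G.H s.H
  Hb := subD S G.Hb s.Hb
  ka := ⟨G.ka, s.ka⟩
  si := ⟨G.si, s.si⟩
  rh := ⟨G.rh, s.rh⟩
  ta := ⟨G.ta, s.ta⟩
  ka' := ⟨G.ka', s.ka'⟩
  si' := ⟨G.si', s.si'⟩
  rh' := ⟨G.rh', s.rh'⟩
  ta' := ⟨G.ta', s.ta'⟩
  P0 := ⟨G.P0, s.P0⟩
  P1 := ⟨G.P1, s.P1⟩
  P2 := ⟨G.P2, s.P2⟩
  P3 := ⟨G.P3, s.P3⟩
  P4 := ⟨G.P4, s.P4⟩

theorem hom_sub (G : GHP A) (S : Subalgebra ℂ A) (s : In G S) : Hom (G.sub S s) G S.val := by
  constructor <;> intros <;> rfl

theorem Is.sub (h : G.Is) (S : Subalgebra ℂ A) (s : In G S) : (G.sub S s).Is :=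
  (hom_sub G S s).is_inj Subtype.val_injective h

/-- The structure on the dual numbers. -/
def dual (G : GHP A) (T : Der A) : GHP (DualNumber A) where
  c := dmap G.c
  th := dlift T G.th
  tp := dlift T G.tp
  et := dlift T G.et
  ep := dlift T G.ep
  H := dlift T G.H
  Hb := dlift T G.Hb
  ka := jet T G.ka
  si := jet T G.si
  rh := jet T G.rh
  ta := jet T G.ta
  ka' := jet T G.ka'
  si' := jet T G.si'
  rh' := jet T G.rh'
  ta' := jet T G.ta'
  P0 := jet T G.P0
  P1 := jet T G.P1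
  P2 := jet T G.P2
  P3 := jet T G.P3
  P4 := jet T G.P4

theorem hom_dual (G : GHP A) (T : Der A) (hc : ∀ f, G.c (T f) = T (G.c f)) :
    Hom G (G.dual T) (jet T) := by
  constructor <;> intros
  case c => ext <;> simp [dual, hc]
  all_goals first | exact (dlift_jet _ _ _).symm | rfl

/-- The equations pass to B if B = φ(A) + e φ(A) with a real constant e. -/
theorem Hom.half_gen (m : Hom G G' φ) (e : B) (hs : ∀ x, ∃ a b, x = φ a + e * φ b)
    (ec : G'.c e = e) (e0 : G'.th e = 0) (e1 : G'.tp e = 0) (e2 : G'.et e = 0) (e3 : G'.ep e = 0)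
    (e4 : G'.H e = 0) (e5 : G'.Hb e = 0) (h : G.Half) : G'.Half := by
  have key : ∀ {x y : A}, x = y → φ x = φ y := fun e => by rw [e]
  have op : ∀ {L R : A → A} {L' R' : B → B} (_ : ∀ f, L f = R f) (_ : ∀ f, φ (L f) = L' (φ f))
      (_ : ∀ f, φ (R f) = R' (φ f)) (_ : ∀ a b, L' (a + e * b) = L' a + e * L' b)
      (_ : ∀ a b, R' (a + e * b) = R' a + e * R' b), ∀ f, L' f = R' f := by
    intro L R L' R' h1 h2 h3 h4 h5 f
    obtain ⟨a, b, rfl⟩ := hs f
    rw [h4, h5, ← h2, ← h2, ← h3, ← h3, h1, h1]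
  constructor
  case calg =>
    intro z
    have := key (h.calg z)
    rwa [m.c, φ.commutes, φ.commutes] at this
  case cc => refine op h.cc ?_ ?_ ?_ ?_ <;> intros <;> simp only [m.c, map_add, map_mul, ec]
  case c_th =>
    refine op h.c_th ?_ ?_ ?_ ?_ <;> intros <;>
      simp only [m.c, m.th, map_add, map_mul, ec, D_mul, e0, mul_zero, add_zero]
  case c_et =>
    refine op h.c_et ?_ ?_ ?_ ?_ <;> intros <;>
      simp only [m.c, m.et, m.ep, map_add, map_mul, ec, D_mul, e2, e3, mul_zero, add_zero]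
  case c_H =>
    refine op h.c_H ?_ ?_ ?_ ?_ <;> intros <;>
      simp only [m.c, m.H, m.Hb, map_add, map_mul, ec, D_mul, e4, e5, mul_zero, add_zero]
  case H_Hb =>
    refine op h.H_Hb ?_ ?_ ?_ ?_ <;> intros <;>
      simp only [m.H, m.Hb, map_add, D_mul, e4, e5, mul_zero, add_zero]
  case H_th =>
    refine op h.H_th ?_ ?_ ?_ ?_ <;> intros <;>
      simp only [m.H, m.th, map_add, D_mul, e4, e0, mul_zero, add_zero]
    ring
  case H_et =>
    refine op h.H_et ?_ ?_ ?_ ?_ <;> intros <;>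
      simp only [m.H, m.et, map_add, D_mul, e4, e2, mul_zero, add_zero]
    ring
  case th_tp =>
    refine op h.th_tp ?_ ?_ ?_ ?_ <;> intros <;>
      simp only [map_add, map_sub, map_mul, m.c, m.th, m.tp, m.et, m.ep, m.H, m.Hb, m.ka, m.ta,
        m.ka', m.ta', m.P2, D_mul, e0, e1, e2, e3, e4, e5, mul_zero, add_zero]
    ring
  case th_et =>
    refine op h.th_et ?_ ?_ ?_ ?_ <;> intros <;>
      simp only [map_add, map_sub, map_mul, m.c, m.th, m.tp, m.et, m.ep, m.H, m.Hb, m.ka, m.si,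
        m.rh, m.si', m.rh', m.ta', m.P1, D_mul, e0, e1, e2, e3, e4, e5, mul_zero, add_zero]
    ring
  case et_ep =>
    refine op h.et_ep ?_ ?_ ?_ ?_ <;> intros <;>
      simp only [map_add, map_sub, map_mul, m.c, m.th, m.tp, m.et, m.ep, m.H, m.Hb, m.si,
        m.rh, m.si', m.rh', m.P2, D_mul, e0, e1, e2, e3, e4, e5, mul_zero, add_zero]
    ring
  all_goals
    simp only [← m.c, ← m.th, ← m.tp, ← m.et, ← m.ep, ← m.H, ← m.Hb, ← m.ka, ← m.si, ← m.rh,
      ← m.ta, ← m.ka', ← m.si', ← m.rh', ← m.ta', ← m.P0, ← m.P1, ← m.P2, ← m.P3, ← m.P4]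
    simp only [h.H_ka, h.Hb_ka, h.H_si, h.Hb_si, h.H_rh, h.Hb_rh, h.H_ta, h.Hb_ta, h.H_P0, h.Hb_P0,
      h.H_P1, h.Hb_P1, h.H_P2, h.Hb_P2, h.r1, h.r2, h.r3, h.r4, h.r5, h.r6, h.b1, h.b2, h.b3, h.b4,
      map_add, map_sub, map_mul, map_neg, map_pow, map_ofNat, map_zero]

theorem Is.dual (h : G.Is) (T : Der A) (hc : ∀ f, G.c (T f) = T (G.c f)) : (G.dual T).Is := by
  have e : ∀ D : Der A, dlift T D DualNumber.eps = 0 := fun D => by ext <;> simp
  have ec : dmap G.c DualNumber.eps = DualNumber.eps := by ext <;> simp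
  have m := hom_dual G T hc
  exact ⟨m.half_gen _ (dual_gen T) ec (e _) (e _) (e _) (e _) (e _) (e _) h.h,
    m.pr.half_gen _ (dual_gen T) ec (e _) (e _) (e _) (e _)
      (neg_eq_zero.2 (e G.H)) (neg_eq_zero.2 (e G.Hb)) h.p⟩

end GHP
end Vale.Agent.P354XG
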