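import Vale.Agent.P354XG.Quot
import Vale.Agent.P354NP.TD

/-!
A GHP algebra of exact type D with a cube root of P2 is a TD algebra.
-/

namespace Vale.Agent.P354XG

variable {A : Type*} [CommRing A] [Algebra ℂ A]

/-- The star structure of an involutive ring homomorphism. -/
@[reducible] def starOf (c : A →+* A) (cc : ∀ f, c (c f) = f) : StarRing A where
  star := c
  star_involutive := cc
  star_mul r s := by rw [mul_comm]; exact map_mul c s r
  star_add := map_add c

theorem d_ze (D : Der A) {ze zi k : A} (e : ze * zi = 1) (h : D (zi ^ 3) = 3 * k * zi ^ 3) :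
    D ze = -(k * ze) := by
  have u : IsUnit zi := IsUnit.of_mul_eq_one ze (by rw [mul_comm, e])
  have h1 : D zi = k * zi := by
    rw [D_cube] at h
    rw [← sub_eq_zero]
    apply (GHP.three_unit.mul (u.pow 2)).mul_right_eq_zero.1
    linear_combination h
  have h2 := congrArg D e
  rw [D_mul, D_one, h1] at h2
  linear_combination ze * h2 - (D ze + k * ze) * e

namespace GHP
variable [StarRing A] {G : GHP A}

/-- The TD algebra. -/
def IsD.td (h : G.IsD) (hs : ∀ f, star f = G.c f) (ze zi : A) (e : ze * zi = 1)
    (e3 : zi ^ 3 = G.P2) : P354NP.TD A where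
  d0 := G.th
  d1 := G.tp
  d2 := G.et
  d3 := G.ep
  H := G.H
  Hb := G.Hb
  r := G.rh
  r2 := G.rh'
  t := G.ta
  t2 := G.ta'
  ze := ze
  zi := zi
  zezi := e
  s0 f := by simp only [hs, h.is.c_th]
  s1 f := by simp only [hs, h.is.c_tp]
  s2 f := by simp only [hs, h.is.c_et]
  sH f := by simp only [hs, h.is.c_H]
  H0 := h.is.H_th
  H1 := h.is.H_tp
  H2 := h.is.H_et
  H3 := h.is.H_ep
  HH := h.is.H_Hb
  Hr := h.is.H_rh
  Hbr := h.is.Hb_rh
  Hr2 := h.is.H_rh'
  Hbr2 := h.is.Hb_rh'
  Ht := h.is.H_ta
  Hbt := h.is.Hb_ta
  Ht2 := h.is.H_ta'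
  Hbt2 := h.is.Hb_ta'
  Hze := by
    have := d_ze G.H (k := 0) e (by rw [e3, h.is.H_P2]; ring)
    simpa using this
  Hbze := by
    have := d_ze G.Hb (k := 0) e (by rw [e3, h.is.Hb_P2]; ring)
    simpa using this
  c01 f := by
    have := h.is.th_tp f
    simp only [h.ka, map_zero, ← e3, map_pow] at this
    simp only [hs]; linear_combination this
  c02 f := by
    have := h.is.th_et f
    simp only [h.ka, h.si, h.P1, map_zero] at this
    simp only [hs]; linear_combination this
  c12 f := by
    have := h.is.tp_et f
    simp only [h.ka', h.si', h.P3, map_zero] at this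
    linear_combination this
  c23 f := by
    have := h.is.et_ep f
    simp only [h.si, map_zero, ← e3, map_pow] at this
    simp only [hs]; linear_combination this
  r_0 := by
    have := h.is.r1
    simp only [h.ka, h.si, map_zero] at this
    linear_combination this
  r_2 := by
    have := h.is.r4
    simp only [h.ka, h.si, h.P1, map_zero] at this
    simp only [hs]; linear_combination this
  t_0 := by
    have := h.is.r3
    simp only [h.ka, h.si, h.P1, map_zero] at this
    simp only [hs]; linear_combination this
  t_2 := by
    have := h.is.r5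
    simp only [h.ka, h.si, h.si', map_zero] at this
    linear_combination this
  rt := by
    have := h.is.r6
    simp only [h.ka, h.si, ← e3] at this
    simp only [hs]; linear_combination -this
  r2_1 := by
    have := h.is.r1'
    simp only [h.ka', h.si', map_zero] at this
    linear_combination this
  r2_3 := by
    have := h.is.r4'
    simp only [h.ka', h.si', h.P3, map_zero] at this
    simp only [hs]; linear_combination this
  t2_1 := by
    have := h.is.r3'
    simp only [h.ka', h.si', h.P3, map_zero] at this
    simp only [hs]; linear_combination this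
  t2_3 := by
    have := h.is.r5'
    simp only [h.ka', h.si, h.si', map_zero] at this
    linear_combination this
  rt2 := by
    have := h.is.r6'
    simp only [h.ka, h.si, ← e3] at this
    simp only [hs]; linear_combination -this
  ze0 := d_ze G.th e (by rw [e3, h.is.tr_th h.P1 h.P3, h.P0]; ring)
  ze1 := d_ze G.tp e (by
    have := h.is.pr.tr_th h.P3 h.P1
    simp only [GHP.pr, h.P4] at this
    rw [e3, this]; ring)
  ze2 := d_ze G.et e (by rw [e3, h.is.tr_et h.P1 h.P3, h.P0]; ring)
  ze3 := d_ze G.ep e (by
    have := h.is.pr.tr_et h.P3 h.P1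
    simp only [GHP.pr, h.P4] at this
    rw [e3, this]; ring)

end GHP
end Vale.Agent.P354XG
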