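import Mathlib

/-!
The GHP calculus over an abstract commutative complex algebra A with a conjugation c. The six
derivations are the horizontal fields th, tp, et, ep (thorn, thorn prime, eth, eth prime) and the
two vertical fields H, Hb (the weights p and q).
-/

namespace Vale.Agent.P354XG

/-- Derivations of A. -/
abbrev Der (A : Type*) [CommRing A] [Algebra ℂ A] := Derivation ℂ A A

section
variable {A : Type*} [CommRing A] [Algebra ℂ A]

theorem D_mul (D : Der A) (a b : A) : D (a * b) = a * D b + b * D a := by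
  rw [Derivation.leibniz, smul_eq_mul, smul_eq_mul]

theorem D_add (D : Der A) (a b : A) : D (a + b) = D a + D b := map_add D a b
theorem D_sub (D : Der A) (a b : A) : D (a - b) = D a - D b := map_sub D a b
theorem D_neg (D : Der A) (a : A) : D (-a) = -D a := map_neg D a
theorem D_zero (D : Der A) : D 0 = 0 := map_zero D
theorem D_one (D : Der A) : D 1 = 0 := D.map_one_eq_zero

theorem D_num (D : Der A) (n : ℕ) [n.AtLeastTwo] : D (ofNat(n) : A) = 0 := D.map_natCast n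

theorem D_sq (D : Der A) (a : A) : D (a ^ 2) = 2 * a * D a := by
  rw [sq, D_mul]; ring

theorem D_cube (D : Der A) (a : A) : D (a ^ 3) = 3 * a ^ 2 * D a := by
  rw [pow_succ, D_mul, D_sq]; ring

theorem D_alg (D : Der A) (z : ℂ) : D (algebraMap ℂ A z) = 0 := D.map_algebraMap z

end

/-- The data of the calculus. -/
structure GHP (A : Type*) [CommRing A] [Algebra ℂ A] where
  c : A →+* A
  th : Der A
  tp : Der A
  et : Der A
  ep : Der A
  H : Der A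
  Hb : Der A
  ka : A
  si : A
  rh : A
  ta : A
  ka' : A
  si' : A
  rh' : A
  ta' : A
  P0 : A
  P1 : A
  P2 : A
  P3 : A
  P4 : A

namespace GHP

variable {A : Type*} [CommRing A] [Algebra ℂ A] (G : GHP A)

/-- The prime operation. -/
def pr : GHP A where
  c := G.c
  th := G.tp
  tp := G.th
  et := G.ep
  ep := G.et
  H := -G.H
  Hb := -G.Hb
  ka := G.ka'
  si := G.si'
  rh := G.rh'
  ta := G.ta'
  ka' := G.ka
  si' := G.si
  rh' := G.rh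
  ta' := G.ta
  P0 := G.P4
  P1 := G.P3
  P2 := G.P2
  P3 := G.P1
  P4 := G.P0

theorem pr_pr : G.pr.pr = G := by
  cases G; simp [pr]

/-- One half of the equations; the other half are the same equations for the primed data. -/
structure Half : Prop where
  cc : ∀ f, G.c (G.c f) = f
  calg : ∀ z : ℂ, G.c (algebraMap ℂ A z) = algebraMap ℂ A (starRingEnd ℂ z)
  c_th : ∀ f, G.c (G.th f) = G.th (G.c f)
  c_et : ∀ f, G.c (G.et f) = G.ep (G.c f)
  c_H : ∀ f, G.c (G.H f) = G.Hb (G.c f)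
  H_Hb : ∀ f, G.H (G.Hb f) = G.Hb (G.H f)
  H_th : ∀ f, G.H (G.th f) = G.th (G.H f) + G.th f
  H_et : ∀ f, G.H (G.et f) = G.et (G.H f) + G.et f
  H_ka : G.H G.ka = 3 * G.ka
  Hb_ka : G.Hb G.ka = G.ka
  H_si : G.H G.si = 3 * G.si
  Hb_si : G.Hb G.si = -G.si
  H_rh : G.H G.rh = G.rh
  Hb_rh : G.Hb G.rh = G.rh
  H_ta : G.H G.ta = G.ta
  Hb_ta : G.Hb G.ta = -G.ta
  H_P0 : G.H G.P0 = 4 * G.P0
  Hb_P0 : G.Hb G.P0 = 0
  H_P1 : G.H G.P1 = 2 * G.P1
  Hb_P1 : G.Hb G.P1 = 0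
  H_P2 : G.H G.P2 = 0
  Hb_P2 : G.Hb G.P2 = 0
  th_tp : ∀ f, G.th (G.tp f) = G.tp (G.th f) + (G.c G.ta - G.ta') * G.et f +
    (G.ta - G.c G.ta') * G.ep f - (G.ka * G.ka' - G.ta * G.ta' + G.P2) * G.H f -
    (G.c G.ka * G.c G.ka' - G.c G.ta * G.c G.ta' + G.c G.P2) * G.Hb f
  th_et : ∀ f, G.th (G.et f) = G.et (G.th f) + G.c G.rh * G.et f + G.si * G.ep f -
    G.c G.ta' * G.th f - G.ka * G.tp f - (G.rh' * G.ka - G.ta' * G.si + G.P1) * G.H f -
    (G.c G.si' * G.c G.ka - G.c G.rh * G.c G.ta') * G.Hb f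
  et_ep : ∀ f, G.et (G.ep f) = G.ep (G.et f) + (G.c G.rh' - G.rh') * G.th f +
    (G.rh - G.c G.rh) * G.tp f + (G.rh * G.rh' - G.si * G.si' + G.P2) * G.H f -
    (G.c G.rh * G.c G.rh' - G.c G.si * G.c G.si' + G.c G.P2) * G.Hb f
  r1 : G.th G.rh = G.ep G.ka + G.rh ^ 2 + G.si * G.c G.si - G.c G.ka * G.ta - G.ta' * G.ka
  r2 : G.th G.si = G.et G.ka + (G.rh + G.c G.rh) * G.si - (G.ta + G.c G.ta') * G.ka + G.P0
  r3 : G.th G.ta = G.tp G.ka + (G.ta - G.c G.ta') * G.rh + (G.c G.ta - G.ta') * G.si + G.P1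
  r4 : G.et G.rh = G.ep G.si + (G.rh - G.c G.rh) * G.ta + (G.c G.rh' - G.rh') * G.ka - G.P1
  r5 : G.et G.ta = G.tp G.si - G.rh' * G.si - G.c G.si' * G.rh + G.ta ^ 2 + G.ka * G.c G.ka'
  r6 : G.ep G.ta = G.tp G.rh - G.rh * G.c G.rh' - G.si * G.si' + G.ta * G.c G.ta +
    G.ka * G.ka' + G.P2
  b1 : G.th G.P1 = G.ep G.P0 - G.ta' * G.P0 + 4 * G.rh * G.P1 - 3 * G.ka * G.P2
  b2 : G.th G.P2 = G.ep G.P1 + G.si' * G.P0 - 2 * G.ta' * G.P1 + 3 * G.rh * G.P2 -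
    2 * G.ka * G.P3
  b3 : G.th G.P3 = G.ep G.P2 + 2 * G.si' * G.P1 - 3 * G.ta' * G.P2 + 2 * G.rh * G.P3 -
    G.ka * G.P4
  b4 : G.th G.P4 = G.ep G.P3 + 3 * G.si' * G.P2 - 4 * G.ta' * G.P3 + G.rh * G.P4

/-- The vacuum GHP equations. -/
structure Is : Prop where
  h : G.Half
  p : G.pr.Half

variable {G}

theorem Is.pr (h : G.Is) : G.pr.Is := ⟨h.p, by rw [pr_pr]; exact h.h⟩

namespace Is
variable (h : G.Is)
include h

theorem cc (f : A) : G.c (G.c f) = f := h.h.cc f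
theorem calg (z : ℂ) : G.c (algebraMap ℂ A z) = algebraMap ℂ A (starRingEnd ℂ z) := h.h.calg z
theorem c_th (f : A) : G.c (G.th f) = G.th (G.c f) := h.h.c_th f
theorem c_tp (f : A) : G.c (G.tp f) = G.tp (G.c f) := h.p.c_th f
theorem c_et (f : A) : G.c (G.et f) = G.ep (G.c f) := h.h.c_et f
theorem c_ep (f : A) : G.c (G.ep f) = G.et (G.c f) := h.p.c_et f
theorem c_H (f : A) : G.c (G.H f) = G.Hb (G.c f) := h.h.c_H f
theorem c_Hb (f : A) : G.c (G.Hb f) = G.H (G.c f) := by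
  have := congrArg G.c (h.c_H (G.c f))
  rw [h.cc, h.cc] at this
  exact this.symm

/-- Derivatives of conjugates. -/
theorem th_c (f : A) : G.th (G.c f) = G.c (G.th f) := (h.c_th f).symm
theorem tp_c (f : A) : G.tp (G.c f) = G.c (G.tp f) := (h.c_tp f).symm
theorem et_c (f : A) : G.et (G.c f) = G.c (G.ep f) := (h.c_ep f).symm
theorem ep_c (f : A) : G.ep (G.c f) = G.c (G.et f) := (h.c_et f).symm
theorem H_c (f : A) : G.H (G.c f) = G.c (G.Hb f) := (h.c_Hb f).symm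
theorem Hb_c (f : A) : G.Hb (G.c f) = G.c (G.H f) := (h.c_H f).symm

theorem H_Hb (f : A) : G.H (G.Hb f) = G.Hb (G.H f) := h.h.H_Hb f
theorem H_th (f : A) : G.H (G.th f) = G.th (G.H f) + G.th f := h.h.H_th f
theorem H_et (f : A) : G.H (G.et f) = G.et (G.H f) + G.et f := h.h.H_et f
theorem H_tp (f : A) : G.H (G.tp f) = G.tp (G.H f) - G.tp f := by
  have := h.p.H_th f
  simp only [GHP.pr, Derivation.neg_apply, D_neg] at this
  linear_combination -this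
theorem H_ep (f : A) : G.H (G.ep f) = G.ep (G.H f) - G.ep f := by
  have := h.p.H_et f
  simp only [GHP.pr, Derivation.neg_apply, D_neg] at this
  linear_combination -this
theorem Hb_th (f : A) : G.Hb (G.th f) = G.th (G.Hb f) + G.th f := by
  have := congrArg G.c (h.H_th (G.c f))
  simpa only [map_add, h.c_H, h.c_th, h.cc] using this
theorem Hb_tp (f : A) : G.Hb (G.tp f) = G.tp (G.Hb f) - G.tp f := by
  have := congrArg G.c (h.H_tp (G.c f))
  simpa only [map_sub, h.c_H, h.c_tp, h.cc] using this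
theorem Hb_et (f : A) : G.Hb (G.et f) = G.et (G.Hb f) - G.et f := by
  have := congrArg G.c (h.H_ep (G.c f))
  simpa only [map_sub, h.c_H, h.c_ep, h.cc] using this
theorem Hb_ep (f : A) : G.Hb (G.ep f) = G.ep (G.Hb f) + G.ep f := by
  have := congrArg G.c (h.H_et (G.c f))
  simpa only [map_add, h.c_H, h.c_et, h.cc] using this

/-- The weights. -/
theorem H_ka : G.H G.ka = 3 * G.ka := h.h.H_ka
theorem Hb_ka : G.Hb G.ka = G.ka := h.h.Hb_ka
theorem H_si : G.H G.si = 3 * G.si := h.h.H_si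
theorem Hb_si : G.Hb G.si = -G.si := h.h.Hb_si
theorem H_rh : G.H G.rh = G.rh := h.h.H_rh
theorem Hb_rh : G.Hb G.rh = G.rh := h.h.Hb_rh
theorem H_ta : G.H G.ta = G.ta := h.h.H_ta
theorem Hb_ta : G.Hb G.ta = -G.ta := h.h.Hb_ta
theorem H_P0 : G.H G.P0 = 4 * G.P0 := h.h.H_P0
theorem Hb_P0 : G.Hb G.P0 = 0 := h.h.Hb_P0
theorem H_P1 : G.H G.P1 = 2 * G.P1 := h.h.H_P1
theorem Hb_P1 : G.Hb G.P1 = 0 := h.h.Hb_P1
theorem H_P2 : G.H G.P2 = 0 := h.h.H_P2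
theorem Hb_P2 : G.Hb G.P2 = 0 := h.h.Hb_P2
theorem H_ka' : G.H G.ka' = -(3 * G.ka') := neg_eq_iff_eq_neg.1 h.p.H_ka
theorem Hb_ka' : G.Hb G.ka' = -G.ka' := neg_eq_iff_eq_neg.1 h.p.Hb_ka
theorem H_si' : G.H G.si' = -(3 * G.si') := neg_eq_iff_eq_neg.1 h.p.H_si
theorem Hb_si' : G.Hb G.si' = G.si' := neg_injective h.p.Hb_si
theorem H_rh' : G.H G.rh' = -G.rh' := neg_eq_iff_eq_neg.1 h.p.H_rh
theorem Hb_rh' : G.Hb G.rh' = -G.rh' := neg_eq_iff_eq_neg.1 h.p.Hb_rh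
theorem H_ta' : G.H G.ta' = -G.ta' := neg_eq_iff_eq_neg.1 h.p.H_ta
theorem Hb_ta' : G.Hb G.ta' = G.ta' := neg_injective h.p.Hb_ta
theorem H_P4 : G.H G.P4 = -(4 * G.P4) := neg_eq_iff_eq_neg.1 h.p.H_P0
theorem Hb_P4 : G.Hb G.P4 = 0 := neg_eq_zero.1 h.p.Hb_P0
theorem H_P3 : G.H G.P3 = -(2 * G.P3) := neg_eq_iff_eq_neg.1 h.p.H_P1
theorem Hb_P3 : G.Hb G.P3 = 0 := neg_eq_zero.1 h.p.Hb_P1

/-- The six commutators. -/
theorem th_tp (f : A) : G.th (G.tp f) = G.tp (G.th f) + (G.c G.ta - G.ta') * G.et f +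
    (G.ta - G.c G.ta') * G.ep f - (G.ka * G.ka' - G.ta * G.ta' + G.P2) * G.H f -
    (G.c G.ka * G.c G.ka' - G.c G.ta * G.c G.ta' + G.c G.P2) * G.Hb f := h.h.th_tp f
theorem th_et (f : A) : G.th (G.et f) = G.et (G.th f) + G.c G.rh * G.et f + G.si * G.ep f -
    G.c G.ta' * G.th f - G.ka * G.tp f - (G.rh' * G.ka - G.ta' * G.si + G.P1) * G.H f -
    (G.c G.si' * G.c G.ka - G.c G.rh * G.c G.ta') * G.Hb f := h.h.th_et f
theorem et_ep (f : A) : G.et (G.ep f) = G.ep (G.et f) + (G.c G.rh' - G.rh') * G.th f +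
    (G.rh - G.c G.rh) * G.tp f + (G.rh * G.rh' - G.si * G.si' + G.P2) * G.H f -
    (G.c G.rh * G.c G.rh' - G.c G.si * G.c G.si' + G.c G.P2) * G.Hb f := h.h.et_ep f
theorem th_ep (f : A) : G.th (G.ep f) = G.ep (G.th f) + G.rh * G.ep f + G.c G.si * G.et f -
    G.ta' * G.th f - G.c G.ka * G.tp f -
    (G.c G.rh' * G.c G.ka - G.c G.ta' * G.c G.si + G.c G.P1) * G.Hb f -
    (G.si' * G.ka - G.rh * G.ta') * G.H f := by
  have := congrArg G.c (h.th_et (G.c f))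
  simpa only [map_add, map_sub, map_mul, h.c_H, h.c_Hb, h.c_th, h.c_tp, h.c_et, h.c_ep, h.cc]
    using this
theorem tp_ep (f : A) : G.tp (G.ep f) = G.ep (G.tp f) + G.c G.rh' * G.ep f + G.si' * G.et f -
    G.c G.ta * G.tp f - G.ka' * G.th f + (G.rh * G.ka' - G.ta * G.si' + G.P3) * G.H f +
    (G.c G.si * G.c G.ka' - G.c G.rh' * G.c G.ta) * G.Hb f := by
  have := h.p.th_et f
  simp only [GHP.pr, Derivation.neg_apply] at this
  linear_combination this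
theorem tp_et (f : A) : G.tp (G.et f) = G.et (G.tp f) + G.rh' * G.et f + G.c G.si' * G.ep f -
    G.ta * G.tp f - G.c G.ka' * G.th f +
    (G.c G.rh * G.c G.ka' - G.c G.ta * G.c G.si' + G.c G.P3) * G.Hb f +
    (G.si * G.ka' - G.rh' * G.ta) * G.H f := by
  have := congrArg G.c (h.tp_ep (G.c f))
  simpa only [map_add, map_sub, map_mul, h.c_H, h.c_Hb, h.c_th, h.c_tp, h.c_et, h.c_ep, h.cc]
    using this

/-- The Ricci identities. -/
theorem r1 : G.th G.rh = G.ep G.ka + G.rh ^ 2 + G.si * G.c G.si - G.c G.ka * G.ta -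
    G.ta' * G.ka := h.h.r1
theorem r2 : G.th G.si = G.et G.ka + (G.rh + G.c G.rh) * G.si - (G.ta + G.c G.ta') * G.ka +
    G.P0 := h.h.r2
theorem r3 : G.th G.ta = G.tp G.ka + (G.ta - G.c G.ta') * G.rh + (G.c G.ta - G.ta') * G.si +
    G.P1 := h.h.r3
theorem r4 : G.et G.rh = G.ep G.si + (G.rh - G.c G.rh) * G.ta + (G.c G.rh' - G.rh') * G.ka -
    G.P1 := h.h.r4
theorem r5 : G.et G.ta = G.tp G.si - G.rh' * G.si - G.c G.si' * G.rh + G.ta ^ 2 +
    G.ka * G.c G.ka' := h.h.r5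
theorem r6 : G.ep G.ta = G.tp G.rh - G.rh * G.c G.rh' - G.si * G.si' + G.ta * G.c G.ta +
    G.ka * G.ka' + G.P2 := h.h.r6
theorem r1' : G.tp G.rh' = G.et G.ka' + G.rh' ^ 2 + G.si' * G.c G.si' - G.c G.ka' * G.ta' -
    G.ta * G.ka' := h.p.r1
theorem r2' : G.tp G.si' = G.ep G.ka' + (G.rh' + G.c G.rh') * G.si' -
    (G.ta' + G.c G.ta) * G.ka' + G.P4 := h.p.r2
theorem r3' : G.tp G.ta' = G.th G.ka' + (G.ta' - G.c G.ta) * G.rh' +
    (G.c G.ta' - G.ta) * G.si' + G.P3 := h.p.r3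
theorem r4' : G.ep G.rh' = G.et G.si' + (G.rh' - G.c G.rh') * G.ta' +
    (G.c G.rh - G.rh) * G.ka' - G.P3 := h.p.r4
theorem r5' : G.ep G.ta' = G.th G.si' - G.rh * G.si' - G.c G.si * G.rh' + G.ta' ^ 2 +
    G.ka' * G.c G.ka := h.p.r5
theorem r6' : G.et G.ta' = G.th G.rh' - G.rh' * G.c G.rh - G.si' * G.si + G.ta' * G.c G.ta' +
    G.ka' * G.ka + G.P2 := h.p.r6

/-- The Bianchi identities. -/
theorem b1 : G.th G.P1 = G.ep G.P0 - G.ta' * G.P0 + 4 * G.rh * G.P1 - 3 * G.ka * G.P2 := h.h.b1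
theorem b2 : G.th G.P2 = G.ep G.P1 + G.si' * G.P0 - 2 * G.ta' * G.P1 + 3 * G.rh * G.P2 -
    2 * G.ka * G.P3 := h.h.b2
theorem b3 : G.th G.P3 = G.ep G.P2 + 2 * G.si' * G.P1 - 3 * G.ta' * G.P2 + 2 * G.rh * G.P3 -
    G.ka * G.P4 := h.h.b3
theorem b4 : G.th G.P4 = G.ep G.P3 + 3 * G.si' * G.P2 - 4 * G.ta' * G.P3 + G.rh * G.P4 := h.h.b4
theorem b1' : G.tp G.P3 = G.et G.P4 - G.ta * G.P4 + 4 * G.rh' * G.P3 - 3 * G.ka' * G.P2 :=
  h.p.b1
theorem b2' : G.tp G.P2 = G.et G.P3 + G.si * G.P4 - 2 * G.ta * G.P3 + 3 * G.rh' * G.P2 -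
    2 * G.ka' * G.P1 := h.p.b2
theorem b3' : G.tp G.P1 = G.et G.P2 + 2 * G.si * G.P3 - 3 * G.ta * G.P2 + 2 * G.rh' * G.P1 -
    G.ka' * G.P0 := h.p.b3
theorem b4' : G.tp G.P0 = G.et G.P1 + 3 * G.si * G.P2 - 4 * G.ta * G.P1 + G.rh' * G.P0 := h.p.b4

/-- In a transverse frame the shears are first derivatives of P0. -/
theorem tr_ka (h1 : G.P1 = 0) : 3 * G.ka * G.P2 = G.ep G.P0 - G.ta' * G.P0 := by
  have := h.b1
  rw [h1, D_zero] at this
  linear_combination this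

theorem tr_si (h1 : G.P1 = 0) : 3 * G.si * G.P2 = G.tp G.P0 - G.rh' * G.P0 := by
  have := h.b4'
  rw [h1, D_zero] at this
  linear_combination -this

theorem tr_th (h1 : G.P1 = 0) (h3 : G.P3 = 0) :
    G.th G.P2 = 3 * G.rh * G.P2 + G.si' * G.P0 := by
  have := h.b2
  rw [h1, h3, D_zero] at this
  linear_combination this

theorem tr_et (h1 : G.P1 = 0) (h3 : G.P3 = 0) :
    G.et G.P2 = 3 * G.ta * G.P2 + G.ka' * G.P0 := by
  have := h.b3'
  rw [h1, h3, D_zero] at this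
  linear_combination -this

/-- The exact Teukolsky equation for P0 in a transverse frame. -/
theorem teukolsky (h1 : G.P1 = 0) (h3 : G.P3 = 0) :
    (G.th (G.tp G.P0 - G.rh' * G.P0) - (4 * G.rh + G.c G.rh) * (G.tp G.P0 - G.rh' * G.P0)) -
      (G.et (G.ep G.P0 - G.ta' * G.P0) - (4 * G.ta + G.c G.ta') * (G.ep G.P0 - G.ta' * G.P0)) -
      3 * G.P2 * G.P0 = 3 * (G.si * G.si' - G.ka * G.ka') * G.P0 := by
  rw [← h.tr_ka h1, ← h.tr_si h1]
  simp only [D_mul, D_num, h.tr_th h1 h3, h.tr_et h1 h3, h.r2]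
  ring

/-- The exact Teukolsky equation for P4. -/
theorem teukolsky' (h1 : G.P1 = 0) (h3 : G.P3 = 0) :
    (G.tp (G.th G.P4 - G.rh * G.P4) - (4 * G.rh' + G.c G.rh') * (G.th G.P4 - G.rh * G.P4)) -
      (G.ep (G.et G.P4 - G.ta * G.P4) - (4 * G.ta' + G.c G.ta) * (G.et G.P4 - G.ta * G.P4)) -
      3 * G.P2 * G.P4 = 3 * (G.si' * G.si - G.ka' * G.ka) * G.P4 := h.pr.teukolsky h3 h1

end Is
end GHP
end Vale.Agent.P354XG
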