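import Vale.Agent.P354XG.Pull

/-!
Gronwall: a closed linear system modulo the weight, small at a base point, is small.
-/

open scoped ContDiff
open Set Filter Topology

namespace Vale.Agent.P354XG

variable {J E : Type} [NormedAddCommGroup E] [NormedSpace ℝ E] {F : Filter J} {K : J → Set E}
  {μ : ℕ → J → ℝ}

/-- y is reached from x0 by n segments in S of length at most L. -/
def Reach (S : Set E) (L : ℝ) (x0 : E) : ℕ → E → Prop
  | 0, y => y = x0
  | n + 1, y => ∃ x, Reach S L x0 n x ∧ segment ℝ x y ⊆ S ∧ ‖y - x‖ ≤ L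

/-- The sets K j are uniformly connected to the base points. -/
def Conn (F : Filter J) (K : J → Set E) (x0 : J → E) : Prop :=
  ∃ n L, ∀ᶠ j in F, ∀ y ∈ K j, Reach (K j) L (x0 j) n y

theorem seg_gron {V : Type} [NormedAddCommGroup V] [NormedSpace ℝ V] {f : E → V} {S : Set E}
    {A B L : ℝ} (hA : 0 ≤ A) (hB : 0 ≤ B) (hd : ∀ z ∈ S, DifferentiableAt ℝ f z)
    (hb : ∀ z ∈ S, ∀ w, ‖fderiv ℝ f z w‖ ≤ ‖w‖ * (A * ‖f z‖ + B)) {x y : E}
    (hs : segment ℝ x y ⊆ S) (hL : ‖y - x‖ ≤ L) :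
    ‖f y‖ ≤ Real.exp (L * A + 1) * (‖f x‖ + L * B) := by
  have L0 : 0 ≤ L := (norm_nonneg _).trans hL
  have mem : ∀ t ∈ Icc (0 : ℝ) 1, x + t • (y - x) ∈ S := fun t ht =>
    hs (by rw [segment_eq_image']; exact ⟨t, ht, rfl⟩)
  have der : ∀ t ∈ Icc (0 : ℝ) 1, HasDerivAt (fun t : ℝ => f (x + t • (y - x)))
      (fderiv ℝ f (x + t • (y - x)) (y - x)) t := fun t ht =>
    HasFDerivAt.comp_hasDerivAt (l := f) t (hd _ (mem t ht)).hasFDerivAt
      (by simpa using ((hasDerivAt_id t).smul_const (y - x)).const_add x)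
  have := norm_le_gronwallBound_of_norm_deriv_right_le (a := 0) (b := 1) (δ := ‖f x‖)
    (K := L * A + 1) (ε := L * B) (f := fun t : ℝ => f (x + t • (y - x)))
    (fun t ht => (der t ht).continuousAt.continuousWithinAt)
    (fun t ht => (der t (Ico_subset_Icc_self ht)).hasDerivWithinAt) (by simp)
    (fun t ht => by
      refine (hb _ (mem t (Ico_subset_Icc_self ht)) _).trans ?_
      have := norm_nonneg (f (x + t • (y - x)))
      have := mul_le_mul_of_nonneg_right hL (show 0 ≤ A * ‖f (x + t • (y - x))‖ + B by positivity)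
      nlinarith) 1 (right_mem_Icc.2 zero_le_one)
  have K0 : 1 ≤ L * A + 1 := by nlinarith [mul_nonneg L0 hA]
  rw [gronwallBound_of_K_ne_0 (by linarith)] at this
  simp only [one_smul, add_sub_cancel, sub_zero, mul_one] at this
  have e1 : L * B / (L * A + 1) ≤ L * B := div_le_self (mul_nonneg L0 hB) K0
  have e2 := Real.exp_pos (L * A + 1)
  have e3 : 0 ≤ L * B / (L * A + 1) := by positivity
  nlinarith

theorem reach_gron {V : Type} [NormedAddCommGroup V] [NormedSpace ℝ V] (A L : ℝ) (hA : 0 ≤ A)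
    (n : ℕ) : ∃ C, 0 ≤ C ∧ ∀ (f : E → V) (S : Set E) (B : ℝ) (x0 y : E), 0 ≤ B →
      (∀ z ∈ S, DifferentiableAt ℝ f z) →
      (∀ z ∈ S, ∀ w, ‖fderiv ℝ f z w‖ ≤ ‖w‖ * (A * ‖f z‖ + B)) → ‖f x0‖ ≤ B →
      Reach S L x0 n y → ‖f y‖ ≤ C * B := by
  induction n with
  | zero => exact ⟨1, zero_le_one, fun f S B x0 y _ _ _ h0 h => by rw [h, one_mul]; exact h0⟩
  | succ n ih =>
    obtain ⟨C, hC, ih⟩ := ih
    refine ⟨Real.exp (L * A + 1) * (C + |L|), by positivity, ?_⟩
    rintro f S B x0 y hB hd hb h0 ⟨x, hx, hs, hL⟩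
    refine (seg_gron hA hB hd hb hs hL).trans ?_
    rw [mul_assoc]
    refine mul_le_mul_of_nonneg_left ?_ (Real.exp_pos _).le
    have := ih f S B x0 x hB hd hb h0 hx
    have := mul_le_mul_of_nonneg_right (le_abs_self L) hB
    linarith

theorem dom0_unif (hμ : Wgt μ) {ι : Type} [Fintype ι] {a : ι → Sm (nb F K)}
    (h : ∀ i, Dom0 μ (a i)) :
    ∃ k C, 0 ≤ C ∧ ∀ᶠ j in F, ∀ x ∈ K j, ∀ i, ‖rep (a i) (j, x)‖ ≤ C * μ k j := by
  choose k C hC h using h
  refine ⟨∑ i, k i, ∑ i, C i, Finset.sum_nonneg fun i _ => hC i, ?_⟩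
  filter_upwards [eventually_all.2 h] with j hj x hx i
  refine (hj i x hx).trans (mul_le_mul ?_ (hμ.mono _ _ j ?_) (hμ.nonneg _ _)
    (Finset.sum_nonneg fun i _ => hC i))
  · exact Finset.single_le_sum (fun i _ => hC i) (Finset.mem_univ i)
  · exact Finset.single_le_sum (fun i _ => Nat.zero_le (k i)) (Finset.mem_univ i)

variable [FiniteDimensional ℝ E] {x0 : J → E} {ι : Type} [Fintype ι]

theorem gron0 (hμ : Wgt μ) (hc : Conn F K x0) (hx : ∀ᶠ j in F, x0 j ∈ K j) (X : ι → Sm (nb F K))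
    (M : E → ι → ι → Sm (nb F K)) (hM : ∀ v i k, Dom0 (w1 J) (M v i k))
    (he : ∀ v i, Dom0 μ (pd v (X i) - ∑ k, M v i k * X k))
    (h0 : ∀ i, Dom0 μ (ev0 x0 hx (X i) : Sm (nb F K))) (i : ι) : Dom0 μ (X i) := by
  let b := Module.finBasis ℝ E
  obtain ⟨n, L, hc⟩ := hc
  obtain ⟨_, C1, hC1, h1⟩ := dom0_unif wgt_one
    (a := fun q : Fin (Module.finrank ℝ E) × ι × ι => M (b q.1) q.2.1 q.2.2) fun q => hM _ _ _
  obtain ⟨k2, C2, hC2, h2⟩ := dom0_unif hμ
    (a := fun q : Fin (Module.finrank ℝ E) × ι => pd (b q.1) (X q.2) - ∑ k, M (b q.1) q.2 k * X k)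
    fun q => he _ _
  obtain ⟨k3, C3, hC3, h3⟩ := dom0_unif hμ h0
  set N : ℝ := ∑ l, ‖bco b l‖ with hN
  have N0 : 0 ≤ N := Finset.sum_nonneg fun _ _ => norm_nonneg _
  obtain ⟨C, hC, hg⟩ := reach_gron (E := E) (V := ι → ℂ) (N * (Fintype.card ι * C1)) L
    (by positivity) n
  refine ⟨max k2 k3, C * (N * C2 + C3), by positivity, ?_⟩
  have e1 : ∀ᶠ p in nb F K, ∀ l i, fderiv ℝ (sl (rep (X i)) p.1) p.2 (b l) =
      rep (pd (b l) (X i) - ∑ k, M (b l) i k * X k) p + ∑ k, rep (M (b l) i k) p * rep (X k) p := by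
    refine eventually_all.2 fun l => eventually_all.2 fun i => ?_
    filter_upwards [rep_pd (b l) (X i), rep_sub (pd (b l) (X i)) (∑ k, M (b l) i k * X k),
      rep_sum Finset.univ fun k => M (b l) i k * X k,
      eventually_all.2 fun k => rep_mul (M (b l) i k) (X k)] with p h1 h2 h3 h4
    rw [h2, Pi.sub_apply, h3, h1]
    simp only [h4, Pi.mul_apply, pdF, sub_add_cancel]
  have e2 : ∀ᶠ p in nb F K, ∀ i, DifferentiableAt ℝ (sl (rep (X i)) p.1) p.2 :=
    eventually_all.2 fun i => (rep_sm (X i)).diff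
  have e3 : ∀ᶠ p in nb F K, ∀ i, rep (ev0 x0 hx (X i) : Sm (nb F K)) p = rep (X i) (p.1, x0 p.1) :=
    eventually_all.2 fun i => by rw [ev0_eq]; exact rep_mk _ (smF_const fun j => rep (X i) (j, x0 j))
  filter_upwards [hc, hx, h1, h2, h3, ev_nb_on e1, ev_nb_on e2, ev_nb_on e3] with j hc hx h1 h2 h3
    e1 e2 e3 y hy
  have m0 := hμ.nonneg (max k2 k3) j
  have m2 := mul_le_mul_of_nonneg_left (hμ.mono k2 _ j (le_max_left k2 k3)) hC2
  have m3 := mul_le_mul_of_nonneg_left (hμ.mono k3 _ j (le_max_right k2 k3)) hC3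
  have := hg (fun z i => rep (X i) (j, z)) (K j) ((N * C2 + C3) * μ (max k2 k3) j) (x0 j) y
    (by positivity) (fun z hz => differentiableAt_pi.2 (e2 z hz)) (fun z hz w => ?_) ?_ (hc y hy)
  · exact ((norm_le_pi_norm (fun i => rep (X i) (j, y)) i).trans this).trans_eq (by ring)
  · refine (pi_norm_le_iff_of_nonneg (by positivity)).2 fun i => ?_
    have ef : fderiv ℝ (fun z i => rep (X i) (j, z)) z = _ := fderiv_pi (e2 z hz)
    rw [ef, ContinuousLinearMap.pi_apply]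
    set R := ‖fun i => rep (X i) (j, z)‖ with hR
    have R0 : 0 ≤ R := norm_nonneg _
    have e : ∀ l, ‖fderiv ℝ (sl (rep (X i)) j) z (b l)‖ ≤
        Fintype.card ι * C1 * R + C2 * μ (max k2 k3) j := by
      intro l
      rw [e1 z hz l i]
      refine (norm_add_le _ _).trans ?_
      rw [add_comm]
      refine add_le_add ((norm_sum_le _ _).trans ?_) ((h2 z hz (l, i)).trans m2)
      refine (Finset.sum_le_card_nsmul _ _ (C1 * R) fun k _ => ?_).trans_eq ?_
      · rw [norm_mul]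
        refine mul_le_mul ?_ (norm_le_pi_norm (fun i => rep (X i) (j, z)) k) (norm_nonneg _) hC1
        simpa [w1] using h1 z hz (l, i, k)
      · simp [mul_assoc]
    refine (congrArg norm (bco_sum b (fderiv ℝ (sl (rep (X i)) j) z) w)).trans_le ?_
    refine (norm_sum_le _ _).trans ?_
    refine (Finset.sum_le_sum (g := fun l => ‖bco b l‖ * (‖w‖ *
      (Fintype.card ι * C1 * R + C2 * μ (max k2 k3) j))) fun l _ => ?_).trans ?_
    · rw [norm_mul, ← mul_assoc]
      exact mul_le_mul ((bco b l).le_opNorm w) (e l) (norm_nonneg _) (by positivity)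
    · rw [← Finset.sum_mul, ← hN]
      have := mul_nonneg (norm_nonneg w) (mul_nonneg hC3 m0)
      nlinarith
  · refine (pi_norm_le_iff_of_nonneg (by positivity)).2 fun i => ?_
    rw [← e3 _ hx i]
    have := mul_nonneg (mul_nonneg N0 hC2) m0
    exact ((h3 _ hx i).trans m3).trans (by nlinarith)

omit [FiniteDimensional ℝ E] in
/-- If the values are small then all derivatives are small. -/
theorem dom_of_sys (hμ : Wgt μ) (X : ι → Sm (nb F K)) (M : E → ι → ι → Sm (nb F K))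
    (hM : ∀ v i k, Bd (M v i k)) (he : ∀ v i, Dom μ (pd v (X i) - ∑ k, M v i k * X k))
    (h0 : ∀ i, Dom0 μ (X i)) (i : ι) : Dom μ (X i) := by
  classical
  refine dom_of_stable {y | ∃ c : ι → Sm (nb F K), (∀ k, Bd (c k)) ∧ Dom μ (y - ∑ k, c k * X k)}
    ?_ ?_ _ ⟨Pi.single i 1, fun k => ?_, ?_⟩
  · rintro y ⟨c, hc, hy⟩
    have := hy.dom0.add hμ (dom0_sum hμ Finset.univ fun k _ => Dom0.bmul hμ (hc k).dom0 (h0 k))
    rwa [sub_add_cancel] at this
  · rintro y ⟨c, hc, hy⟩ v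
    refine ⟨fun k => pd v (c k) + ∑ l, c l * M v l k, fun k => ((hc k).pd v).add wgt_one
      (dom_sum wgt_one _ fun l _ => Dom.bmul wgt_one (hc l) (hM v l k)), ?_⟩
    have := (hy.pd v).add hμ (dom_sum hμ Finset.univ fun l _ => Dom.bmul hμ (hc l) (he v l))
    have e : ∑ k, (∑ l, c l * M v l k) * X k = ∑ l, c l * ∑ k, M v l k * X k := by
      simp only [Finset.sum_mul, Finset.mul_sum, mul_assoc]
      exact Finset.sum_comm
    simp only [D_sub, map_sum, D_mul, mul_sub, Finset.sum_add_distrib, Finset.sum_sub_distrib,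
      add_mul, e, mul_comm (X _)] at this ⊢
    have e' : ∀ a b c d : Sm (nb F K), a - (b + c) + (b - d) = a - (c + d) := by intros; ring
    rwa [e'] at this
  · by_cases h : k = i
    · subst h; simpa only [Pi.single_eq_same, map_one] using bd_alg (F := F) (K := K) 1
    · rw [Pi.single_eq_of_ne h]; exact dom_zero wgt_one
  · simp only [Pi.single_apply, ite_mul, one_mul, zero_mul, Finset.sum_ite_eq', Finset.mem_univ,
      if_true, sub_self]
    exact dom_zero hμ

/-- GRON. -/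
theorem gron (hμ : Wgt μ) (hc : Conn F K x0) (hx : ∀ᶠ j in F, x0 j ∈ K j) (X : ι → Sm (nb F K))
    (hD : ∀ v i, ∃ M : ι → Sm (nb F K), (∀ k, Bd (M k)) ∧ Dom μ (pd v (X i) - ∑ k, M k * X k))
    (h0 : ∀ i, Dom0 μ (ev0 x0 hx (X i) : Sm (nb F K))) (i : ι) : Dom μ (X i) := by
  choose M hM he using hD
  exact dom_of_sys hμ X M hM he
    (gron0 hμ hc hx X M (fun v i k => (hM v i k).dom0) (fun v i => (he v i).dom0) h0) i

/-- A family with small derivatives is close to its value at the base point. -/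
theorem dom_sub_ev0 (hμ : Wgt μ) (hc : Conn F K x0) (hx : ∀ᶠ j in F, x0 j ∈ K j)
    {a : Sm (nb F K)} (ha : ∀ v, Dom μ (pd v a)) : Dom μ (a - ev0 x0 hx a) := by
  refine gron hμ hc hx (fun _ : Unit => a - ev0 x0 hx a) (fun v _ => ⟨0, fun _ =>
    dom_zero wgt_one, ?_⟩) (fun _ => ?_) ()
  · simpa [D_sub, pd_ev0] using ha v
  · have : (ev0 x0 hx (ev0 x0 hx a : Sm (nb F K)) : Sm (nb F K)) = ev0 x0 hx a := by
      rw [ev0_eq x0 hx a]; exact Mp.pb_cst _ _
    rw [map_sub, this, sub_self]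
    exact dom0_zero hμ

end Vale.Agent.P354XG
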