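import Vale.Agent.P354XG.Geo

/-!
Null frames on the bundle: conjugation, weights, completeness, the components of the curvature.
-/

namespace Vale.Agent.P354XG
namespace Geo

variable {A : Type*} [CommRing A] [Algebra ℂ A] {S : Geo A}

/-- w is the conjugate of the operator u. -/
structure Cj (S : Geo A) (u w : Op A) : Prop where
  X : S.cv u.X = w.X
  a : S.c u.a = w.b
  b : S.c u.b = w.a

/-- A derivation which commutes with the lifts and kills the geometry. -/
structure Vert (S : Geo A) (D : Der A) : Prop where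
  L : ∀ a f, D (S.L a f) = S.L a (D f)
  H : ∀ f, D (S.H f) = S.H (D f)
  Hb : ∀ f, D (S.Hb f) = S.Hb (D f)
  g : ∀ a b, D (S.g a b) = 0
  Γ : ∀ a b d, D (S.Γ a b d) = 0

/-- The operator u has the weight w for D. -/
structure Wt (D : Der A) (u : Op A) (w : A) : Prop where
  X : dv D u.X = w • u.X
  a : D u.a = w * u.a
  b : D u.b = w * u.b

theorem Vert.neg {D : Der A} (h : Vert S D) : Vert S (-D) where
  L a f := by simp only [Derivation.neg_apply, h.L, D_neg]
  H f := by simp only [Derivation.neg_apply, h.H, D_neg]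
  Hb f := by simp only [Derivation.neg_apply, h.Hb, D_neg]
  g a b := by simp only [Derivation.neg_apply, h.g, neg_zero]
  Γ a b d := by simp only [Derivation.neg_apply, h.Γ, neg_zero]

theorem dv_neg (D : Der A) (Z : Vec A) : dv (-D) Z = -dv D Z := rfl

theorem Wt.neg {D : Der A} {u : Op A} {w : A} (h : Wt D u w) : Wt (-D) u (-w) where
  X := by rw [dv_neg, h.X, neg_smul]
  a := by rw [Derivation.neg_apply, h.a, neg_mul]
  b := by rw [Derivation.neg_apply, h.b, neg_mul]

namespace Vert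
variable {D : Der A} (h : Vert S D)
include h

theorem act {u : Op A} {w : A} (hu : Wt D u w) (f : A) :
    D (S.act u f) = S.act u (D f) + w * S.act u f := by
  have e : ∀ a, D (u.X a) = w * u.X a := fun a => congrFun hu.X a
  simp only [act_apply, Fin.sum_univ_four, D_add, D_mul, e, hu.a, hu.b, h.L, h.H, h.Hb]
  ring

theorem dot (Y Z : Vec A) : D (S.dot Y Z) = S.dot (dv D Y) Z + S.dot Y (dv D Z) := by
  simp only [Geo.dot, dv, Fin.sum_univ_four, D_add, D_mul, h.g]
  ring

theorem Gm (Y Z : Vec A) : dv D (S.Gm Y Z) = S.Gm (dv D Y) Z + S.Gm Y (dv D Z) := by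
  funext d
  simp only [Geo.Gm, dv, Pi.add_apply, Fin.sum_univ_four, D_add, D_mul, h.Γ]
  ring

theorem nab {u : Op A} {w : A} (hu : Wt D u w) (Z : Vec A) :
    dv D (S.nab u Z) = S.nab u (dv D Z) + w • S.nab u Z := by
  funext d
  have e := congrFun (h.Gm u.X Z) d
  rw [hu.X, Gm_smul_left] at e
  simp only [Geo.nab, dv, Pi.add_apply, Pi.smul_apply, smul_eq_mul, D_add, h.act hu] at e ⊢
  rw [e]; ring

theorem R (a b c d : Fin 4) : D (S.R a b c d) = 0 := by
  simp only [Geo.R, Fin.sum_univ_four, D_add, D_sub, D_mul, h.L, h.Γ, D_zero]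
  ring

theorem Rm (X Y Z : Vec A) :
    dv D (S.Rm X Y Z) = S.Rm (dv D X) Y Z + S.Rm X (dv D Y) Z + S.Rm X Y (dv D Z) := by
  funext d
  simp only [Geo.Rm, dv, Pi.add_apply, map_sum, ← Finset.sum_add_distrib]
  refine Finset.sum_congr rfl fun a _ => Finset.sum_congr rfl fun b _ =>
    Finset.sum_congr rfl fun c _ => ?_
  simp only [D_mul, h.R]; ring

theorem W (X Y Z U : Vec A) : D (S.W X Y Z U) = S.W (dv D X) Y Z U + S.W X (dv D Y) Z U +
    S.W X Y (dv D Z) U + S.W X Y Z (dv D U) := by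
  simp only [Geo.W, h.dot, h.Rm, dot_add_left]

end Vert

section linW
variable (S) (X Y Z U V : Vec A) (s : A)
theorem W_add1 : S.W (X + Y) Z U V = S.W X Z U V + S.W Y Z U V := by
  simp only [W, Rm_add1, dot_add_left]
theorem W_add2 : S.W Z (X + Y) U V = S.W Z X U V + S.W Z Y U V := by
  simp only [W, Rm_add2, dot_add_left]
theorem W_add3 : S.W Z U (X + Y) V = S.W Z U X V + S.W Z U Y V := by
  simp only [W, Rm_add3, dot_add_left]
theorem W_add4 : S.W Z U V (X + Y) = S.W Z U V X + S.W Z U V Y := by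
  simp only [W, dot_add_right]
theorem W_smul1 : S.W (s • X) Z U V = s * S.W X Z U V := by
  simp only [W, Rm_smul1, dot_smul_left]
theorem W_smul2 : S.W Z (s • X) U V = s * S.W Z X U V := by
  simp only [W, Rm_smul2, dot_smul_left]
theorem W_smul3 : S.W Z U (s • X) V = s * S.W Z U X V := by
  simp only [W, Rm_smul3, dot_smul_left]
theorem W_smul4 : S.W Z U V (s • X) = s * S.W Z U V X := by
  simp only [W, dot_smul_right]
theorem W_neg1 : S.W (-X) Z U V = -S.W X Z U V := by
  rw [← neg_one_smul A X, W_smul1, neg_one_mul]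
theorem W_neg2 : S.W Z (-X) U V = -S.W Z X U V := by
  rw [← neg_one_smul A X, W_smul2, neg_one_mul]
theorem W_neg3 : S.W Z U (-X) V = -S.W Z U X V := by
  rw [← neg_one_smul A X, W_smul3, neg_one_mul]
theorem W_neg4 : S.W Z U V (-X) = -S.W Z U V X := by
  rw [← neg_one_smul A X, W_smul4, neg_one_mul]
theorem W_sub1 : S.W (X - Y) Z U V = S.W X Z U V - S.W Y Z U V := by
  rw [sub_eq_add_neg, W_add1, W_neg1, ← sub_eq_add_neg]
theorem W_sub2 : S.W Z (X - Y) U V = S.W Z X U V - S.W Z Y U V := by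
  rw [sub_eq_add_neg, W_add2, W_neg2, ← sub_eq_add_neg]
theorem W_sub3 : S.W Z U (X - Y) V = S.W Z U X V - S.W Z U Y V := by
  rw [sub_eq_add_neg, W_add3, W_neg3, ← sub_eq_add_neg]
theorem W_sub4 : S.W Z U V (X - Y) = S.W Z U V X - S.W Z U V Y := by
  rw [sub_eq_add_neg, W_add4, W_neg4, ← sub_eq_add_neg]
end linW

namespace Is
variable (h : S.Is)
include h

theorem vertH : Vert S S.H := ⟨h.HL, fun _ => rfl, h.HHb, h.H_g, h.H_Γ⟩
theorem vertHb : Vert S S.Hb := ⟨h.HbL, fun f => (h.HHb f).symm, fun _ => rfl, h.Hb_g, h.Hb_Γ⟩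

theorem cvcv (Z : Vec A) : S.cv (S.cv Z) = Z := funext fun d => h.cc (Z d)

theorem cj_symm {u w : Op A} (e : Cj S u w) : Cj S w u where
  X := by rw [← e.X, h.cvcv]
  a := by rw [← e.b, h.cc]
  b := by rw [← e.a, h.cc]

theorem c_act {u w : Op A} (e : Cj S u w) (f : A) : S.c (S.act u f) = S.act w (S.c f) := by
  have eX : ∀ a, S.c (u.X a) = w.X a := fun a => congrFun e.X a
  simp only [act_apply, Fin.sum_univ_four, map_add, map_mul, eX, e.a, e.b, h.c_L, h.c_H, h.c_Hb]
  ring

theorem c_dot (Y Z : Vec A) : S.c (S.dot Y Z) = S.dot (S.cv Y) (S.cv Z) := by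
  simp only [dot, cv, map_sum, map_mul, h.c_g]

theorem c_Gm (Y Z : Vec A) : S.cv (S.Gm Y Z) = S.Gm (S.cv Y) (S.cv Z) := by
  funext d; simp only [Gm, cv, map_sum, map_mul, h.c_Γ]

theorem c_nab {u w : Op A} (e : Cj S u w) (Z : Vec A) :
    S.cv (S.nab u Z) = S.nab w (S.cv Z) := by
  funext d
  have := congrFun (h.c_Gm u.X Z) d
  rw [e.X] at this
  simp only [nab, dv, cv, Pi.add_apply, map_add, h.c_act e] at this ⊢
  rw [this]

theorem c_R (a b c d : Fin 4) : S.c (S.R a b c d) = S.R a b c d := by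
  simp only [R, map_add, map_sub, map_sum, map_mul, h.c_L, h.c_Γ]

theorem c_W (X Y Z U : Vec A) :
    S.c (S.W X Y Z U) = S.W (S.cv X) (S.cv Y) (S.cv Z) (S.cv U) := by
  have : S.cv (S.Rm X Y Z) = S.Rm (S.cv X) (S.cv Y) (S.cv Z) := by
    funext d; simp only [Rm, cv, map_sum, map_mul, h.c_R]
  simp only [W, h.c_dot, this]

theorem W_diag12 (X Z U : Vec A) : S.W X X Z U = 0 := by
  apply h.half; linear_combination W_anti12 (S := S) X X Z U

theorem W_diag34 (X Y Z : Vec A) : S.W X Y Z Z = 0 := by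
  apply h.half; linear_combination h.W_anti34 X Y Z Z

/-- The second Bianchi identity with all indices down. -/
theorem bianW (u w s : Op A) (Z U : Vec A) :
    (S.act u (S.W w.X s.X Z U) - S.W w.X s.X Z (S.nab u U) - S.W w.X s.X (S.nab u Z) U +
      S.W u.X (S.nab w s.X - S.nab s w.X) Z U) +
    (S.act w (S.W s.X u.X Z U) - S.W s.X u.X Z (S.nab w U) - S.W s.X u.X (S.nab w Z) U +
      S.W w.X (S.nab s u.X - S.nab u s.X) Z U) +
    (S.act s (S.W u.X w.X Z U) - S.W u.X w.X Z (S.nab s U) - S.W u.X w.X (S.nab s Z) U +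
      S.W s.X (S.nab u w.X - S.nab w u.X) Z U) = 0 := by
  have e := congrArg (fun V => S.dot V U) (h.bian u w s Z)
  simp only [dot_add_left, dot_sub_left, dot_zero_left, h.br_X] at e
  simp only [W, h.act_dot]
  linear_combination e

end Is

/-- A normalised null frame. -/
structure Null (S : Geo A) (l n m mb : Vec A) : Prop where
  c_l : S.cv l = l
  c_n : S.cv n = n
  c_m : S.cv m = mb
  ll : S.dot l l = 0
  nn : S.dot n n = 0
  mm : S.dot m m = 0
  ln : S.dot l n = -1
  lm : S.dot l m = 0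
  nm : S.dot n m = 0
  mmb : S.dot m mb = 1

namespace Null
variable {l n m mb : Vec A} (h : S.Is) (N : Null S l n m mb)
include h N

theorem c_mb : S.cv mb = m := by rw [← N.c_m, h.cvcv]
theorem mbmb : S.dot mb mb = 0 := by
  have := congrArg S.c N.mm
  rwa [h.c_dot, N.c_m, map_zero] at this
theorem lmb : S.dot l mb = 0 := by
  have := congrArg S.c N.lm
  rwa [h.c_dot, N.c_m, N.c_l, map_zero] at this
theorem nmb : S.dot n mb = 0 := by
  have := congrArg S.c N.nm
  rwa [h.c_dot, N.c_m, N.c_n, map_zero] at this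
theorem nl : S.dot n l = -1 := by rw [h.dot_comm, N.ln]
theorem ml : S.dot m l = 0 := by rw [h.dot_comm, N.lm]
theorem mn : S.dot m n = 0 := by rw [h.dot_comm, N.nm]
theorem mbl : S.dot mb l = 0 := by rw [h.dot_comm, N.lmb h]
theorem mbn : S.dot mb n = 0 := by rw [h.dot_comm, N.nmb h]
theorem mbm : S.dot mb m = 1 := by rw [h.dot_comm, N.mmb]

theorem pr : Null S n l mb m :=
  ⟨N.c_n, N.c_l, N.c_mb h, N.nn, N.ll, N.mbmb h, N.nl h, N.nmb h, N.lmb h, N.mbm h⟩

/-- Completeness. -/
theorem span (Z : Vec A) :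
    Z = (-S.dot Z n) • l + (-S.dot Z l) • n + S.dot Z mb • m + S.dot Z m • mb := by
  let F : Matrix (Fin 4) (Fin 4) A := fun a j => ![l, n, m, mb] j a
  let T : Matrix (Fin 4) (Fin 4) A := fun j a => ∑ b, S.g a b * ![-n, -l, mb, m] j b
  have e : ∀ j (Y : Vec A), ∑ a, T j a * Y a = S.dot Y (![-n, -l, mb, m] j) := by
    intro j Y
    simp only [T, dot, Finset.sum_mul]
    exact Finset.sum_congr rfl fun a _ => Finset.sum_congr rfl fun b _ => by ring
  have e1 : T * F = 1 := by
    ext i j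
    rw [Matrix.mul_apply, e i (fun a => F a j)]
    show S.dot (![l, n, m, mb] j) _ = _
    fin_cases i <;> fin_cases j <;>
      simp [dot_neg_right, N.ll, N.nn, N.mm, N.ln, N.lm, N.nm, N.mmb, N.mbmb h, N.lmb h, N.nmb h,
        N.nl h, N.ml h, N.mn h, N.mbl h, N.mbn h, N.mbm h]
  have e2 : F * T = 1 := mul_eq_one_comm.1 e1
  have e3 : F.mulVec (T.mulVec Z) = Z := by rw [Matrix.mulVec_mulVec, e2, Matrix.one_mulVec]
  have e4 : ∀ j, T.mulVec Z j = S.dot Z (![-n, -l, mb, m] j) := fun j => e j Z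
  funext d
  rw [← congrFun e3 d]
  simp only [Matrix.mulVec, dotProduct, Fin.sum_univ_four] at e4 ⊢
  simp only [e4]
  simp [F, dot_neg_right]
  ring

/-- The trace in the frame. -/
theorem ric (Y Z : Vec A) :
    -S.W l Y Z n - S.W n Y Z l + S.W m Y Z mb + S.W mb Y Z m = 0 := by
  have e0 : ∑ a, S.Rm (Pi.single a 1) Y Z a = 0 := by
    have : ∀ a, S.Rm (Pi.single a 1) Y Z a = ∑ b, ∑ c, S.R a b c a * Y b * Z c := by
      intro a
      simp only [Rm]
      rw [Finset.sum_eq_single a]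
      · simp
      · intro b _ hb; simp [hb]
      · simp
    simp only [this]
    rw [Finset.sum_comm]
    refine Finset.sum_eq_zero fun b _ => ?_
    rw [Finset.sum_comm]
    refine Finset.sum_eq_zero fun c _ => ?_
    rw [← Finset.sum_mul, ← Finset.sum_mul, h.ric, zero_mul, zero_mul]
  have e1 : ∀ V U : Vec A, ∑ a, S.dot (Pi.single a 1) U * V a = S.dot V U := by
    intro V U
    simp [dot, Fin.sum_univ_four, Pi.single_apply]
    ring
  have e2 : ∀ a, S.Rm (Pi.single a 1) Y Z a = -(S.dot (Pi.single a 1) n * S.Rm l Y Z a) -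
      S.dot (Pi.single a 1) l * S.Rm n Y Z a + S.dot (Pi.single a 1) mb * S.Rm m Y Z a +
      S.dot (Pi.single a 1) m * S.Rm mb Y Z a := by
    intro a
    conv_lhs => rw [N.span h (Pi.single a 1)]
    simp only [Rm_add1, Rm_smul1, Pi.add_apply, Pi.smul_apply, smul_eq_mul]
    ring
  simp only [e2, Finset.sum_add_distrib, Finset.sum_sub_distrib, Finset.sum_neg_distrib, e1] at e0
  exact e0

end Null
end Geo
end Vale.Agent.P354XG
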