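import Vale.Agent.P354XG.GHP

/-!
Abstract geometry on a bundle with two vertical fields: lifts L of the coordinate fields, metric
and Christoffel symbols which are constant along the fibres, covariant derivative, curvature.
-/

namespace Vale.Agent.P354XG

/-- Components of vector fields. -/
abbrev Vec (A : Type*) := Fin 4 → A

/-- The data. -/
structure Geo (A : Type*) [CommRing A] [Algebra ℂ A] where
  c : A →+* A
  L : Fin 4 → Der A
  H : Der A
  Hb : Der A
  g : Fin 4 → Fin 4 → A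
  Γ : Fin 4 → Fin 4 → Fin 4 → A
  v : Fin 4 → Fin 4 → A
  vb : Fin 4 → Fin 4 → A

/-- A vector field on the bundle: the components of its projection and two vertical parts. -/
structure Op (A : Type*) where
  X : Vec A
  a : A
  b : A

namespace Geo

variable {A : Type*} [CommRing A] [Algebra ℂ A] (S : Geo A)

/-- The curvature R(d_a, d_b) d_c = sum of R a b c d d_d. -/
def R (a b c d : Fin 4) : A :=
  S.L a (S.Γ b c d) - S.L b (S.Γ a c d) + ∑ f, (S.Γ b c f * S.Γ a f d - S.Γ a c f * S.Γ b f d)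

/-- The equations: Γ is the Levi-Civita connection of g and the Ricci tensor vanishes. -/
structure Is : Prop where
  cc : ∀ f, S.c (S.c f) = f
  calg : ∀ z : ℂ, S.c (algebraMap ℂ A z) = algebraMap ℂ A (starRingEnd ℂ z)
  c_L : ∀ a f, S.c (S.L a f) = S.L a (S.c f)
  c_H : ∀ f, S.c (S.H f) = S.Hb (S.c f)
  c_g : ∀ a b, S.c (S.g a b) = S.g a b
  c_Γ : ∀ a b d, S.c (S.Γ a b d) = S.Γ a b d
  LL : ∀ a b f, S.L a (S.L b f) = S.L b (S.L a f) + S.v a b * S.H f + S.vb a b * S.Hb f
  HL : ∀ a f, S.H (S.L a f) = S.L a (S.H f)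
  HHb : ∀ f, S.H (S.Hb f) = S.Hb (S.H f)
  H_g : ∀ a b, S.H (S.g a b) = 0
  H_Γ : ∀ a b d, S.H (S.Γ a b d) = 0
  g_symm : ∀ a b, S.g a b = S.g b a
  Γ_symm : ∀ a b d, S.Γ a b d = S.Γ b a d
  compat : ∀ a b d, S.L a (S.g b d) = ∑ f, (S.Γ a b f * S.g f d + S.Γ a d f * S.g b f)
  ric : ∀ b d, ∑ a, S.R a b d a = 0

/-- The derivation of an operator. -/
def act (u : Op A) : Der A := ∑ a, u.X a • S.L a + u.a • S.H + u.b • S.Hb

theorem act_apply (u : Op A) (f : A) :
    S.act u f = ∑ a, u.X a * S.L a f + u.a * S.H f + u.b * S.Hb f := by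
  simp [act, Fin.sum_univ_four]

def dot (Y Z : Vec A) : A := ∑ a, ∑ b, S.g a b * Y a * Z b
def Gm (X Y : Vec A) : Vec A := fun d => ∑ a, ∑ b, S.Γ a b d * X a * Y b
def Rm (X Y Z : Vec A) : Vec A := fun d => ∑ a, ∑ b, ∑ c, S.R a b c d * X a * Y b * Z c

/-- A derivation acting on the components. -/
def dv (D : Der A) (Z : Vec A) : Vec A := fun d => D (Z d)

/-- The covariant derivative. -/
def nab (u : Op A) (Z : Vec A) : Vec A := dv (S.act u) Z + S.Gm u.X Z

/-- The bracket. -/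
def br (u w : Op A) : Op A where
  X := dv (S.act u) w.X - dv (S.act w) u.X
  a := S.act u w.a - S.act w u.a + ∑ a, ∑ b, u.X a * w.X b * S.v a b
  b := S.act u w.b - S.act w u.b + ∑ a, ∑ b, u.X a * w.X b * S.vb a b

/-- The conjugate vector. -/
def cv (Z : Vec A) : Vec A := fun d => S.c (Z d)

/-- The curvature with all indices down. -/
def W (X Y Z U : Vec A) : A := S.dot (S.Rm X Y Z) U

section lin
variable (X Y Z U : Vec A) (s : A)

theorem dot_add_left : S.dot (X + Y) Z = S.dot X Z + S.dot Y Z := by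
  simp only [dot, Pi.add_apply, Fin.sum_univ_four]; ring
theorem dot_add_right : S.dot Z (X + Y) = S.dot Z X + S.dot Z Y := by
  simp only [dot, Pi.add_apply, Fin.sum_univ_four]; ring
theorem dot_smul_left : S.dot (s • X) Z = s * S.dot X Z := by
  simp only [dot, Pi.smul_apply, smul_eq_mul, Fin.sum_univ_four]; ring
theorem dot_smul_right : S.dot Z (s • X) = s * S.dot Z X := by
  simp only [dot, Pi.smul_apply, smul_eq_mul, Fin.sum_univ_four]; ring
theorem dot_sub_left : S.dot (X - Y) Z = S.dot X Z - S.dot Y Z := by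
  simp only [dot, Pi.sub_apply, Fin.sum_univ_four]; ring
theorem dot_sub_right : S.dot Z (X - Y) = S.dot Z X - S.dot Z Y := by
  simp only [dot, Pi.sub_apply, Fin.sum_univ_four]; ring
theorem dot_neg_left : S.dot (-X) Z = -S.dot X Z := by
  simp only [dot, Pi.neg_apply, Fin.sum_univ_four]; ring
theorem dot_neg_right : S.dot Z (-X) = -S.dot Z X := by
  simp only [dot, Pi.neg_apply, Fin.sum_univ_four]; ring
theorem dot_zero_left : S.dot 0 Z = 0 := by simp [dot]

theorem Gm_add_left : S.Gm (X + Y) Z = S.Gm X Z + S.Gm Y Z := by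
  funext d; simp only [Gm, Pi.add_apply, Fin.sum_univ_four]; ring
theorem Gm_add_right : S.Gm Z (X + Y) = S.Gm Z X + S.Gm Z Y := by
  funext d; simp only [Gm, Pi.add_apply, Fin.sum_univ_four]; ring
theorem Gm_sub_left : S.Gm (X - Y) Z = S.Gm X Z - S.Gm Y Z := by
  funext d; simp only [Gm, Pi.sub_apply, Fin.sum_univ_four]; ring
theorem Gm_smul_left : S.Gm (s • X) Z = s • S.Gm X Z := by
  funext d; simp only [Gm, Pi.smul_apply, smul_eq_mul, Fin.sum_univ_four]; ring
theorem Gm_smul_right : S.Gm Z (s • X) = s • S.Gm Z X := by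
  funext d; simp only [Gm, Pi.smul_apply, smul_eq_mul, Fin.sum_univ_four]; ring
theorem Gm_zero_left : S.Gm 0 Z = 0 := by funext d; simp [Gm]

theorem Rm_add1 : S.Rm (X + Y) Z U = S.Rm X Z U + S.Rm Y Z U := by
  funext d; simp only [Rm, Pi.add_apply, ← Finset.sum_add_distrib]
  refine Finset.sum_congr rfl fun a _ => Finset.sum_congr rfl fun b _ =>
    Finset.sum_congr rfl fun c _ => by ring
theorem Rm_add2 : S.Rm Z (X + Y) U = S.Rm Z X U + S.Rm Z Y U := by
  funext d; simp only [Rm, Pi.add_apply, ← Finset.sum_add_distrib]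
  refine Finset.sum_congr rfl fun a _ => Finset.sum_congr rfl fun b _ =>
    Finset.sum_congr rfl fun c _ => by ring
theorem Rm_add3 : S.Rm Z U (X + Y) = S.Rm Z U X + S.Rm Z U Y := by
  funext d; simp only [Rm, Pi.add_apply, ← Finset.sum_add_distrib]
  refine Finset.sum_congr rfl fun a _ => Finset.sum_congr rfl fun b _ =>
    Finset.sum_congr rfl fun c _ => by ring
theorem Rm_smul1 : S.Rm (s • X) Z U = s • S.Rm X Z U := by
  funext d; simp only [Rm, Pi.smul_apply, smul_eq_mul, Finset.mul_sum]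
  refine Finset.sum_congr rfl fun a _ => Finset.sum_congr rfl fun b _ =>
    Finset.sum_congr rfl fun c _ => by ring
theorem Rm_smul2 : S.Rm Z (s • X) U = s • S.Rm Z X U := by
  funext d; simp only [Rm, Pi.smul_apply, smul_eq_mul, Finset.mul_sum]
  refine Finset.sum_congr rfl fun a _ => Finset.sum_congr rfl fun b _ =>
    Finset.sum_congr rfl fun c _ => by ring
theorem Rm_smul3 : S.Rm Z U (s • X) = s • S.Rm Z U X := by
  funext d; simp only [Rm, Pi.smul_apply, smul_eq_mul, Finset.mul_sum]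
  refine Finset.sum_congr rfl fun a _ => Finset.sum_congr rfl fun b _ =>
    Finset.sum_congr rfl fun c _ => by ring

theorem R_anti (a b c d : Fin 4) : S.R a b c d = -S.R b a c d := by
  simp only [R, Fin.sum_univ_four]; ring

theorem Rm_anti : S.Rm X Y Z = -S.Rm Y X Z := by
  funext d
  simp only [Rm, Pi.neg_apply, ← Finset.sum_neg_distrib]
  rw [Finset.sum_comm]
  refine Finset.sum_congr rfl fun a _ => Finset.sum_congr rfl fun b _ =>
    Finset.sum_congr rfl fun c _ => by rw [S.R_anti]; ring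

theorem nab_add (u : Op A) : S.nab u (X + Y) = S.nab u X + S.nab u Y := by
  funext d; simp only [nab, dv, Gm_add_right, Pi.add_apply, D_add]; ring
theorem nab_smul (u : Op A) : S.nab u (s • X) = S.act u s • X + s • S.nab u X := by
  funext d
  simp only [nab, dv, Gm_smul_right, Pi.add_apply, Pi.smul_apply, smul_eq_mul, D_mul]; ring
theorem nab_neg (u : Op A) : S.nab u (-X) = -S.nab u X := by
  have := S.nab_smul X (-1) u
  simpa [D_neg, D_one] using this
theorem nab_sub (u : Op A) : S.nab u (X - Y) = S.nab u X - S.nab u Y := by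
  rw [sub_eq_add_neg, nab_add, nab_neg, ← sub_eq_add_neg]

end lin

variable {S}

namespace Is
variable (h : S.Is)
include h

theorem c_Hb (f : A) : S.c (S.Hb f) = S.H (S.c f) := by
  have := congrArg S.c (h.c_H (S.c f))
  rw [h.cc, h.cc] at this
  exact this.symm

theorem HbL (a : Fin 4) (f : A) : S.Hb (S.L a f) = S.L a (S.Hb f) := by
  have := congrArg S.c (h.HL a (S.c f))
  simpa only [h.c_H, h.c_L, h.cc] using this

theorem Hb_g (a b : Fin 4) : S.Hb (S.g a b) = 0 := by
  have := congrArg S.c (h.H_g a b)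
  simpa only [h.c_H, h.c_g, map_zero] using this

theorem Hb_Γ (a b d : Fin 4) : S.Hb (S.Γ a b d) = 0 := by
  have := congrArg S.c (h.H_Γ a b d)
  simpa only [h.c_H, h.c_Γ, map_zero] using this

theorem dot_comm (Y Z : Vec A) : S.dot Y Z = S.dot Z Y := by
  simp only [dot]
  rw [Finset.sum_comm]
  refine Finset.sum_congr rfl fun a _ => Finset.sum_congr rfl fun b _ => by rw [h.g_symm]; ring

theorem Gm_comm (Y Z : Vec A) : S.Gm Y Z = S.Gm Z Y := by
  funext d
  simp only [Gm]
  rw [Finset.sum_comm]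
  refine Finset.sum_congr rfl fun a _ => Finset.sum_congr rfl fun b _ => by rw [h.Γ_symm]; ring

/-- The metric is parallel. -/
theorem act_dot (u : Op A) (Y Z : Vec A) :
    S.act u (S.dot Y Z) = S.dot (S.nab u Y) Z + S.dot Y (S.nab u Z) := by
  have e : ∀ a b, S.act u (S.g a b) =
      ∑ c, u.X c * ∑ f, (S.Γ c a f * S.g f b + S.Γ c b f * S.g a f) := by
    intro a b
    simp only [act_apply, h.H_g, h.Hb_g, h.compat, mul_zero, add_zero]
  simp only [dot, nab, dv, Gm, Pi.add_apply, Fin.sum_univ_four, D_add, D_mul, e]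
  ring

/-- The commutator of two operators. -/
theorem act_br (u w : Op A) (f : A) :
    S.act u (S.act w f) - S.act w (S.act u f) = S.act (S.br u w) f := by
  have e : ∑ a, ∑ b, u.X a * w.X b * (S.L a (S.L b f) - S.L b (S.L a f)) =
      ∑ a, ∑ b, u.X a * w.X b * (S.v a b * S.H f + S.vb a b * S.Hb f) :=
    Finset.sum_congr rfl fun a _ => Finset.sum_congr rfl fun b _ => by rw [h.LL a b]; ring
  rw [S.act_apply w f, S.act_apply u f, S.act_apply (S.br u w)]
  simp only [br, dv, Pi.sub_apply, Fin.sum_univ_four, D_add, D_mul] at e ⊢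
  generalize S.act u (w.X 0) = x0
  generalize S.act u (w.X 1) = x1
  generalize S.act u (w.X 2) = x2
  generalize S.act u (w.X 3) = x3
  generalize S.act w (u.X 0) = y0
  generalize S.act w (u.X 1) = y1
  generalize S.act w (u.X 2) = y2
  generalize S.act w (u.X 3) = y3
  generalize S.act u w.a = x4
  generalize S.act u w.b = x5
  generalize S.act w u.a = y4
  generalize S.act w u.b = y5
  simp only [act_apply, Fin.sum_univ_four, h.HL, h.HbL, h.HHb]
  linear_combination e

/-- No torsion. -/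
theorem br_X (u w : Op A) : (S.br u w).X = S.nab u w.X - S.nab w u.X := by
  simp only [br, nab, h.Gm_comm w.X u.X]; abel

theorem act_Gm (u : Op A) (Y Z : Vec A) (d : Fin 4) :
    S.act u (S.Gm Y Z d) = ∑ a, ∑ b, ∑ c, S.L a (S.Γ b c d) * u.X a * Y b * Z c +
      S.Gm (dv (S.act u) Y) Z d + S.Gm Y (dv (S.act u) Z) d := by
  have e : ∀ b c, S.act u (S.Γ b c d) = ∑ a, u.X a * S.L a (S.Γ b c d) := by
    intro a b
    simp only [act_apply, h.H_Γ, h.Hb_Γ, mul_zero, add_zero]
  simp only [Gm, dv, Fin.sum_univ_four, D_add, D_mul, e]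
  ring

omit h in
theorem Rm_eq (X Y Z : Vec A) (d : Fin 4) :
    S.Rm X Y Z d = ∑ a, ∑ b, ∑ c, S.L a (S.Γ b c d) * X a * Y b * Z c -
      ∑ a, ∑ b, ∑ c, S.L a (S.Γ b c d) * Y a * X b * Z c +
      S.Gm X (S.Gm Y Z) d - S.Gm Y (S.Gm X Z) d := by
  simp only [Rm, R, Gm, Fin.sum_univ_four]
  ring

/-- The curvature. -/
theorem curv (u w : Op A) (Z : Vec A) :
    S.nab u (S.nab w Z) - S.nab w (S.nab u Z) - S.nab (S.br u w) Z = S.Rm u.X w.X Z := by
  funext d
  have e := h.act_br u w (Z d)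
  have eX : (S.br u w).X = dv (S.act u) w.X - dv (S.act w) u.X := rfl
  simp only [nab, Pi.sub_apply, Pi.add_apply, Gm_add_right, eX, Gm_sub_left, Rm_eq]
  simp only [dv, D_add, Pi.add_apply, h.act_Gm] at e ⊢
  linear_combination e

theorem jac_act (u w s : Op A) (f : A) :
    S.act (S.br u (S.br w s)) f + S.act (S.br w (S.br s u)) f + S.act (S.br s (S.br u w)) f = 0 := by
  simp only [← h.act_br, D_sub]; ring

theorem jac_X (u w s : Op A) :
    (S.br u (S.br w s)).X + (S.br w (S.br s u)).X + (S.br s (S.br u w)).X = 0 := by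
  funext d
  have e : ∀ u w : Op A, (S.br u w).X d = S.act u (w.X d) - S.act w (u.X d) := fun _ _ => rfl
  simp only [Pi.add_apply, e, ← h.act_br, D_sub, Pi.zero_apply]; ring

theorem jac_nab (u w s : Op A) (Z : Vec A) :
    S.nab (S.br u (S.br w s)) Z + S.nab (S.br w (S.br s u)) Z + S.nab (S.br s (S.br u w)) Z =
      0 := by
  have e := congrArg (fun X => S.Gm X Z) (h.jac_X u w s)
  simp only [Gm_add_left, Gm_zero_left] at e
  funext d
  have e1 := congrFun e d
  have e2 := h.jac_act u w s (Z d)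
  simp only [nab, dv, Pi.add_apply, Pi.zero_apply] at e1 ⊢
  linear_combination e1 + e2

/-- The first Bianchi identity. -/
theorem cyc (X Y Z : Vec A) : S.Rm X Y Z + S.Rm Y Z X + S.Rm Z X Y = 0 := by
  have e := h.jac_X ⟨X, 0, 0⟩ ⟨Y, 0, 0⟩ ⟨Z, 0, 0⟩
  have e1 := h.curv ⟨X, 0, 0⟩ ⟨Y, 0, 0⟩ Z
  have e2 := h.curv ⟨Y, 0, 0⟩ ⟨Z, 0, 0⟩ X
  have e3 := h.curv ⟨Z, 0, 0⟩ ⟨X, 0, 0⟩ Y
  simp only [h.br_X, nab_sub] at e e1 e2 e3
  rw [← e1, ← e2, ← e3, ← e]
  abel

/-- The second Bianchi identity. -/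
theorem bian (u w s : Op A) (Z : Vec A) :
    (S.nab u (S.Rm w.X s.X Z) - S.Rm w.X s.X (S.nab u Z) + S.Rm u.X (S.br w s).X Z) +
    (S.nab w (S.Rm s.X u.X Z) - S.Rm s.X u.X (S.nab w Z) + S.Rm w.X (S.br s u).X Z) +
    (S.nab s (S.Rm u.X w.X Z) - S.Rm u.X w.X (S.nab s Z) + S.Rm s.X (S.br u w).X Z) = 0 := by
  have e := h.jac_nab u w s Z
  simp only [← h.curv, nab_sub]
  rw [← neg_eq_zero, ← e]
  abel

theorem W_anti34 (X Y Z U : Vec A) : S.W X Y Z U = -S.W X Y U Z := by
  have e := h.act_br ⟨X, 0, 0⟩ ⟨Y, 0, 0⟩ (S.dot Z U)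
  have e1 := h.curv ⟨X, 0, 0⟩ ⟨Y, 0, 0⟩ Z
  have e2 := h.curv ⟨X, 0, 0⟩ ⟨Y, 0, 0⟩ U
  simp only [W] at e1 e2 ⊢
  rw [← e1, ← e2, h.dot_comm _ Z]
  simp only [h.act_dot, D_add, dot_sub_left, dot_sub_right] at e ⊢
  linear_combination e

omit h in
theorem W_anti12 (X Y Z U : Vec A) : S.W X Y Z U = -S.W Y X Z U := by
  simp only [W]; rw [S.Rm_anti, dot_neg_left]

theorem W_cyc (X Y Z U : Vec A) : S.W X Y Z U + S.W Y Z X U + S.W Z X Y U = 0 := by
  simp only [W, ← dot_add_left, h.cyc, dot_zero_left]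

theorem half (x : A) (e : 2 * x = 0) : x = 0 := by
  have : IsUnit (algebraMap ℂ A 2) := (isUnit_iff_ne_zero.2 (by norm_num)).map _
  rw [map_ofNat] at this
  exact this.mul_right_eq_zero.1 e

theorem W_pair (X Y Z U : Vec A) : S.W X Y Z U = S.W Z U X Y := by
  have e1 := h.W_cyc X Y Z U
  have e2 := h.W_cyc Y Z U X
  have e3 := h.W_cyc Z U X Y
  have e4 := h.W_cyc U X Y Z
  rw [← sub_eq_zero]
  apply h.half
  have a1 := h.W_anti34 Y Z U X
  have a2 := h.W_anti34 Z U Y X
  have a3 := h.W_anti34 X Y U Z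
  have a4 := h.W_anti34 U X Z Y
  have a5 := W_anti12 (S := S) Z X Y U
  have a6 := W_anti12 (S := S) U Y Z X
  have a7 := h.W_anti34 X Z U Y
  have a8 := h.W_anti34 Y U Z X
  linear_combination e1 + e2 - e3 - e4 - a1 - a2 + a3 + a4 - a5 - a6 + a7 + a8

end Is
end Geo
end Vale.Agent.P354XG
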