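import Vale.Agent.P354XG.Fr

/-!
From a weighted null frame to the GHP equations.
-/

namespace Vale.Agent.P354XG
namespace Geo

variable {A : Type*} [CommRing A] [Algebra ℂ A] {S : Geo A}

namespace Null
variable {l n m mb : Vec A} (h : S.Is) (N : Null S l n m mb)
include h N

theorem w_lm_lmb : S.W l m l mb = 0 := by
  have e := N.ric h l l
  have e1 := h.W_pair l mb l m
  rw [h.W_diag12, h.W_diag34, Is.W_anti12 m l, Is.W_anti12 mb l] at e
  apply h.half; linear_combination -e - e1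

theorem w_lm_mmb : S.W l m m mb = -S.W l n l m := by
  have e := N.ric h l m
  rw [h.W_diag12, h.W_diag34, Is.W_anti12 m l, Is.W_anti12 n l, h.W_anti34 l n m l] at e
  linear_combination -e

theorem w_lm_nm : S.W l m n m = 0 := by
  have e := N.ric h m m
  have e1 := h.W_pair n m l m
  rw [h.W_diag12, h.W_diag34, h.W_anti34 l m m n, h.W_anti34 n m m l] at e
  apply h.half; linear_combination e - e1

theorem c_p2 : S.c (S.W n mb l m) = S.W n m l mb := by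
  rw [h.c_W, N.c_n, N.c_mb h, N.c_l, N.c_m]

theorem w_ln_mmb : S.W l n m mb = S.W n mb l m - S.c (S.W n mb l m) := by
  have e := h.W_cyc l n m mb
  rw [N.c_p2 h, h.W_pair n mb l m]
  rw [Is.W_anti12 m l] at e
  linear_combination e

theorem w_ln_ln : S.W l n l n = -(S.W n mb l m + S.c (S.W n mb l m)) := by
  have e := N.ric h l n
  rw [N.c_p2 h, h.W_pair n mb l m, h.W_pair n m l mb]
  rw [h.W_diag12, Is.W_anti12 m l, Is.W_anti12 mb l, Is.W_anti12 n l, h.W_anti34 l n n l] at e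
  linear_combination -e

theorem w_mmb_mmb : S.W m mb m mb = -(S.W n mb l m + S.c (S.W n mb l m)) := by
  have e := N.ric h m mb
  rw [N.c_p2 h, h.W_pair n mb l m]
  rw [h.W_diag12, Is.W_anti12 mb m, h.W_anti34 m mb mb m, h.W_anti34 l m mb n,
    h.W_anti34 n m mb l] at e
  linear_combination e

end Null

/-- Four operators over a null frame with the GHP weights and the GHP gauge. -/
structure Hat (S : Geo A) (u0 u1 u2 u3 : Op A) (D Db : Der A) (p2 : A) : Prop where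
  null : Null S u0.X u1.X u2.X u3.X
  cj0 : Cj S u0 u0
  cj1 : Cj S u1 u1
  cj2 : Cj S u2 u3
  hD : (D = S.H ∧ Db = S.Hb) ∨ (D = -S.H ∧ Db = -S.Hb)
  w0 : Wt D u0 1
  w1 : Wt D u1 (-1)
  w2 : Wt D u2 1
  w3 : Wt D u3 (-1)
  v0 : Wt Db u0 1
  v1 : Wt Db u1 (-1)
  v2 : Wt Db u2 (-1)
  v3 : Wt Db u3 1
  g0 : S.dot (S.nab u0 u0.X) u1.X = 0 ∧ S.dot (S.nab u0 u2.X) u3.X = 0
  g1 : S.dot (S.nab u1 u0.X) u1.X = 0 ∧ S.dot (S.nab u1 u2.X) u3.X = 0
  g2 : S.dot (S.nab u2 u0.X) u1.X = 0 ∧ S.dot (S.nab u2 u2.X) u3.X = 0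
  g3 : S.dot (S.nab u3 u0.X) u1.X = 0 ∧ S.dot (S.nab u3 u2.X) u3.X = 0
  p2 : p2 = S.W u1.X u3.X u0.X u2.X

/-- The GHP data of the four operators. -/
def mk' (S : Geo A) (u0 u1 u2 u3 : Op A) (D Db : Der A) (p2 : A) : GHP A where
  c := S.c
  th := S.act u0
  tp := S.act u1
  et := S.act u2
  ep := S.act u3
  H := D
  Hb := Db
  ka := -S.dot (S.nab u0 u0.X) u2.X
  si := -S.dot (S.nab u2 u0.X) u2.X
  rh := -S.dot (S.nab u3 u0.X) u2.X
  ta := -S.dot (S.nab u1 u0.X) u2.X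
  ka' := -S.dot (S.nab u1 u1.X) u3.X
  si' := -S.dot (S.nab u3 u1.X) u3.X
  rh' := -S.dot (S.nab u2 u1.X) u3.X
  ta' := -S.dot (S.nab u0 u1.X) u3.X
  P0 := -S.W u0.X u2.X u0.X u2.X
  P1 := -S.W u0.X u1.X u0.X u2.X
  P2 := p2
  P3 := -S.W u1.X u0.X u1.X u3.X
  P4 := -S.W u1.X u3.X u1.X u3.X

theorem mk'_pr (u0 u1 u2 u3 : Op A) (D Db : Der A) (p2 : A) :
    (mk' S u0 u1 u2 u3 D Db p2).pr = mk' S u1 u0 u3 u2 (-D) (-Db) p2 := rfl

theorem Is.dot_flip (h : S.Is) (u : Op A) {Y Z : Vec A} (e : S.act u (S.dot Y Z) = 0) :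
    S.dot (S.nab u Y) Z = -S.dot (S.nab u Z) Y := by
  rw [h.act_dot, h.dot_comm Y] at e
  linear_combination e

/-- The derivative of the frame along an operator in the GHP gauge. -/
theorem Null.table {l n m mb : Vec A} (h : S.Is) (N : Null S l n m mb) (u : Op A)
    (g : S.dot (S.nab u l) n = 0 ∧ S.dot (S.nab u m) mb = 0) {k1 k2 k3 k4 : A}
    (e1 : k1 = -S.dot (S.nab u l) m) (e2 : k2 = -S.dot (S.nab u l) mb)
    (e3 : k3 = -S.dot (S.nab u n) mb) (e4 : k4 = -S.dot (S.nab u n) m) :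
    S.nab u l = -(k1 • mb) - k2 • m ∧ S.nab u n = -(k3 • m) - k4 • mb ∧
      S.nab u m = -(k1 • n) - k4 • l ∧ S.nab u mb = -(k3 • l) - k2 • n := by
  have z : ∀ Y, S.dot Y Y = 0 → S.dot (S.nab u Y) Y = 0 := by
    intro Y hY
    apply h.half
    linear_combination h.dot_flip u (Y := Y) (Z := Y) (by rw [hY, D_zero])
  have f1 := h.dot_flip u (Y := n) (Z := l) (by rw [N.nl h, D_neg, D_one, neg_zero])
  have f2 := h.dot_flip u (Y := mb) (Z := m) (by rw [N.mbm h, D_one])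
  have f3 := h.dot_flip u (Y := m) (Z := l) (by rw [N.ml h, D_zero])
  have f4 := h.dot_flip u (Y := m) (Z := n) (by rw [N.mn h, D_zero])
  have f5 := h.dot_flip u (Y := mb) (Z := l) (by rw [N.mbl h, D_zero])
  have f6 := h.dot_flip u (Y := mb) (Z := n) (by rw [N.mbn h, D_zero])
  refine ⟨?_, ?_, ?_, ?_⟩
  · rw [N.span h (S.nab u l), g.1, z l N.ll, e1, e2]; module
  · rw [N.span h (S.nab u n), f1, g.1, z n N.nn, e3, e4]; module
  · rw [N.span h (S.nab u m), g.2, z m N.mm, f3, f4, e1, e4]; module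
  · rw [N.span h (S.nab u mb), f2, g.2, z mb (N.mbmb h), f5, f6, e2, e3]; module

namespace Hat
variable {u0 u1 u2 u3 : Op A} {D Db : Der A} {p2 : A} (h : S.Is) (T : Hat S u0 u1 u2 u3 D Db p2)
include h T

theorem pr : Hat S u1 u0 u3 u2 (-D) (-Db) p2 := by
  have N := T.null
  have fl : ∀ u : Op A, S.dot (S.nab u u0.X) u1.X = 0 ∧ S.dot (S.nab u u2.X) u3.X = 0 →
      S.dot (S.nab u u1.X) u0.X = 0 ∧ S.dot (S.nab u u3.X) u2.X = 0 := by
    intro u g
    constructor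
    · rw [h.dot_flip u (by rw [N.nl h, D_neg, D_one, neg_zero]), g.1, neg_zero]
    · rw [h.dot_flip u (by rw [N.mbm h, D_one]), g.2, neg_zero]
  refine ⟨N.pr h, T.cj1, T.cj0, h.cj_symm T.cj2, ?_, ?_, T.w0.neg, ?_, T.w2.neg, ?_, T.v0.neg,
    T.v3.neg, ?_, fl _ T.g1, fl _ T.g0, fl _ T.g3, fl _ T.g2, ?_⟩
  · rcases T.hD with ⟨a, b⟩ | ⟨a, b⟩
    · right; rw [a, b]; exact ⟨rfl, rfl⟩
    · left; rw [a, b, neg_neg, neg_neg]; exact ⟨rfl, rfl⟩
  · simpa only [neg_neg] using T.w1.neg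
  · simpa only [neg_neg] using T.w3.neg
  · simpa only [neg_neg] using T.v1.neg
  · simpa only [neg_neg] using T.v2.neg
  · rw [T.p2, h.W_pair]

theorem vD : Vert S D := by
  rcases T.hD with ⟨a, _⟩ | ⟨a, _⟩ <;> rw [a]
  exacts [h.vertH, h.vertH.neg]

theorem vDb : Vert S Db := by
  rcases T.hD with ⟨_, a⟩ | ⟨_, a⟩ <;> rw [a]
  exacts [h.vertHb, h.vertHb.neg]

theorem c_D (f : A) : S.c (D f) = Db (S.c f) := by
  rcases T.hD with ⟨a, b⟩ | ⟨a, b⟩ <;> rw [a, b]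
  · exact h.c_H f
  · simp only [Derivation.neg_apply, map_neg, h.c_H]

theorem D_Db (f : A) : D (Db f) = Db (D f) := by
  rcases T.hD with ⟨a, b⟩ | ⟨a, b⟩ <;> rw [a, b]
  · exact h.HHb f
  · simp only [Derivation.neg_apply, map_neg, h.HHb]

/-- The commutator of two operators in the frame. -/
theorem pair (u w : Op A) (c0 c1 c2 c3 : A)
    (hX : S.nab u w.X - S.nab w u.X = c0 • u0.X + c1 • u1.X + c2 • u2.X + c3 • u3.X) :
    ∃ φ ψ : A, (∀ f, S.act u (S.act w f) - S.act w (S.act u f) = c0 * S.act u0 f +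
      c1 * S.act u1 f + c2 * S.act u2 f + c3 * S.act u3 f + φ * D f + ψ * Db f) ∧
      ∀ Z U, S.dot (S.nab u (S.nab w Z)) U - S.dot (S.nab w (S.nab u Z)) U =
        c0 * S.dot (S.nab u0 Z) U + c1 * S.dot (S.nab u1 Z) U + c2 * S.dot (S.nab u2 Z) U +
        c3 * S.dot (S.nab u3 Z) U + φ * S.dot (dv D Z) U + ψ * S.dot (dv Db Z) U +
        S.W u.X w.X Z U := by
  rw [← h.br_X] at hX
  obtain ⟨φ, ψ, e⟩ : ∃ φ ψ : A, ∀ f, S.act (S.br u w) f = c0 * S.act u0 f +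
      c1 * S.act u1 f + c2 * S.act u2 f + c3 * S.act u3 f + φ * D f + ψ * Db f := by
    rcases T.hD with ⟨a, b⟩ | ⟨a, b⟩
    · refine ⟨(S.br u w).a - (c0 * u0.a + c1 * u1.a + c2 * u2.a + c3 * u3.a),
        (S.br u w).b - (c0 * u0.b + c1 * u1.b + c2 * u2.b + c3 * u3.b), fun f => ?_⟩
      simp only [act_apply, hX, a, b, Fin.sum_univ_four, Pi.add_apply, Pi.smul_apply, smul_eq_mul]
      ring
    · refine ⟨-((S.br u w).a - (c0 * u0.a + c1 * u1.a + c2 * u2.a + c3 * u3.a)),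
        -((S.br u w).b - (c0 * u0.b + c1 * u1.b + c2 * u2.b + c3 * u3.b)), fun f => ?_⟩
      simp only [act_apply, hX, a, b, Fin.sum_univ_four, Pi.add_apply, Pi.smul_apply, smul_eq_mul,
        Derivation.neg_apply]
      ring
  refine ⟨φ, ψ, fun f => by rw [h.act_br, e], fun Z U => ?_⟩
  have e1 : S.nab (S.br u w) Z = c0 • S.nab u0 Z + c1 • S.nab u1 Z + c2 • S.nab u2 Z +
      c3 • S.nab u3 Z + φ • dv D Z + ψ • dv Db Z := by
    funext d
    simp only [nab, hX, Gm_add_left, Gm_smul_left, dv, Pi.add_apply, Pi.smul_apply, smul_eq_mul, e]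
    ring
  have e2 := congrArg (fun V => S.dot V U) (h.curv u w Z)
  simp only [e1, dot_sub_left, dot_add_left, dot_smul_left] at e2
  simp only [W]
  linear_combination e2

end Hat
end Geo
end Vale.Agent.P354XG
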