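import Vale.Agent.P354XG.Pull

/-!
Integration over a parameter in the unit interval.
-/

open scoped ContDiff
open Set Filter Topology MeasureTheory Metric

namespace Vale.Agent.P354XG

section Par
variable {E V : Type} [NormedAddCommGroup E] [NormedSpace ℝ E] [NormedAddCommGroup V]
  [NormedSpace ℝ V] {U : Set E}

/-- The partial derivative in the second variable. -/
noncomputable def d2 (Φ : ℝ × E → V) (p : ℝ × E) : E →L[ℝ] V :=
  (fderiv ℝ Φ p).comp (ContinuousLinearMap.inr ℝ ℝ E)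

/-- Smooth at the points of [0,1] x U. -/
def SmI (U : Set E) (Φ : ℝ × E → V) : Prop := ∀ t ∈ Icc (0 : ℝ) 1, ∀ y ∈ U, ContDiffAt ℝ ∞ Φ (t, y)

theorem SmI.d2 {Φ : ℝ × E → V} (h : SmI U Φ) : SmI U (d2 Φ) := fun t ht y hy =>
  ((h t ht y hy).fderiv_right (m := ∞) (by simp)).clm_comp contDiffAt_const

theorem SmI.cont {Φ : ℝ × E → V} (h : SmI U Φ) {y : E} (hy : y ∈ U) :
    ContinuousOn (fun t => Φ (t, y)) (Icc 0 1) := fun t ht =>
  ((h t ht y hy).continuousAt.comp (f := fun t => (t, y))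
    (continuous_id.prodMk continuous_const).continuousAt).continuousWithinAt

theorem SmI.intg {Φ : ℝ × E → V} (h : SmI U Φ) {y : E} (hy : y ∈ U) :
    IntervalIntegrable (fun t => Φ (t, y)) volume 0 1 :=
  ContinuousOn.intervalIntegrable (by rw [uIcc_of_le zero_le_one]; exact h.cont hy)

variable [FiniteDimensional ℝ E]

theorem SmI.hasFDerivAt {Φ : ℝ × E → V} (hU : IsOpen U) (h : SmI U Φ) {y₀ : E} (hy : y₀ ∈ U) :
    HasFDerivAt (fun y => ∫ t in (0 : ℝ)..1, Φ (t, y))
      (∫ t in (0 : ℝ)..1, P354XG.d2 Φ (t, y₀)) y₀ := by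
  have := FiniteDimensional.proper_real E
  obtain ⟨δ, hδ, hδU⟩ := Metric.nhds_basis_closedBall.mem_iff.1 (hU.mem_nhds hy)
  obtain ⟨C, hC⟩ := ((isCompact_Icc (a := (0 : ℝ)) (b := 1)).prod
    (isCompact_closedBall y₀ δ)).exists_bound_of_continuousOn (f := P354XG.d2 Φ)
    (fun p hp => (h.d2 p.1 hp.1 p.2 (hδU hp.2)).continuousAt.continuousWithinAt)
  have sub : uIoc (0 : ℝ) 1 ⊆ Icc 0 1 := by rw [uIoc_of_le zero_le_one]; exact Ioc_subset_Icc_self
  refine intervalIntegral.hasFDerivAt_integral_of_dominated_of_fderiv_le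
    (F := fun y t => Φ (t, y)) (F' := fun y t => P354XG.d2 Φ (t, y)) (bound := fun _ => C)
    (s := ball y₀ δ) (ball_mem_nhds y₀ hδ) ?_ (h.intg hy)
    (((h.d2.cont hy).mono sub).aestronglyMeasurable measurableSet_uIoc) ?_
    intervalIntegrable_const ?_
  · filter_upwards [ball_mem_nhds y₀ hδ] with y hy'
    exact ((h.cont (hδU (ball_subset_closedBall hy'))).mono sub).aestronglyMeasurable
      measurableSet_uIoc
  · exact Eventually.of_forall fun t ht y hy' => hC (t, y) ⟨sub ht, ball_subset_closedBall hy'⟩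
  · refine Eventually.of_forall fun t ht y hy' => ?_
    exact ((h t (sub ht) y (hδU (ball_subset_closedBall hy'))).differentiableAt
      (by simp)).hasFDerivAt.comp y (hasFDerivAt_prodMk_right t y)

end Par

theorem smI_nat {E : Type} [NormedAddCommGroup E] [NormedSpace ℝ E] [FiniteDimensional ℝ E]
    {U : Set E} (hU : IsOpen U) (k : ℕ) : ∀ (V : Type) [NormedAddCommGroup V] [NormedSpace ℝ V]
    (Φ : ℝ × E → V) (_ : SmI U Φ), ContDiffOn ℝ k (fun y => ∫ t in (0 : ℝ)..1, Φ (t, y)) U := by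
  induction k with
  | zero =>
    intro V _ _ Φ h
    rw [Nat.cast_zero, contDiffOn_zero]
    exact fun y hy => (h.hasFDerivAt hU hy).continuousAt.continuousWithinAt
  | succ k ih =>
    intro V _ _ Φ h
    rw [show ((k + 1 : ℕ) : WithTop ℕ∞) = (k : WithTop ℕ∞) + 1 by push_cast; rfl,
      contDiffOn_succ_iff_fderiv_of_isOpen hU]
    refine ⟨fun y hy => (h.hasFDerivAt hU hy).differentiableAt.differentiableWithinAt,
      by simp, ?_⟩
    exact (ih (E →L[ℝ] V) (d2 Φ) h.d2).congr fun y hy => (h.hasFDerivAt hU hy).fderiv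

variable {J E : Type} [NormedAddCommGroup E] [NormedSpace ℝ E] {F : Filter J} {K : J → Set E}
  {μ : ℕ → J → ℝ}

/-- The sets [0,1] x K j. -/
def cyl (K : J → Set E) (j : J) : Set (ℝ × E) := Icc 0 1 ×ˢ K j

omit [NormedSpace ℝ E] in
theorem ev_cyl {P : J × (ℝ × E) → Prop} (h : ∀ᶠ p in nb F (cyl K), P p) :
    ∀ᶠ p in nb F K, ∀ t ∈ Icc (0 : ℝ) 1, P (p.1, t, p.2) := by
  rw [ev_nb] at h ⊢
  refine h.mono fun j hj x hx => ?_
  refine isCompact_Icc.eventually_forall_of_forall_eventually fun t ht => ?_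
  have := hj (t, x) ⟨ht, hx⟩
  exact (continuous_swap.tendsto (x, t)).eventually this

omit [NormedSpace ℝ E] in
theorem ev_open {G : Filter (J × E)} [Loc G] {P : J × E → Prop} (h : ∀ᶠ p in G, P p) :
    ∀ᶠ p in G, ∃ U, IsOpen U ∧ p.2 ∈ U ∧ ∀ y ∈ U, P (p.1, y) :=
  (Loc.ev P h).mono fun _ hp => by
    obtain ⟨U, h1, h2, h3⟩ := _root_.eventually_nhds_iff.1 hp
    exact ⟨U, h2, h3, h1⟩

theorem SmF.smI {f : J × (ℝ × E) → ℂ} (hf : SmF (nb F (cyl K)) f) :
    ∀ᶠ p in nb F K, ∃ U, IsOpen U ∧ p.2 ∈ U ∧ SmI U (sl f p.1) :=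
  (ev_open (ev_cyl hf)).mono fun _ ⟨U, h1, h2, h3⟩ => ⟨U, h1, h2, fun t ht y hy => h3 y hy t ht⟩

/-- The integral of a representative. -/
noncomputable def intF (f : J × (ℝ × E) → ℂ) (p : J × E) : ℂ := ∫ t in (0 : ℝ)..1, f (p.1, t, p.2)

omit [NormedSpace ℝ E] in
theorem intF_congr {f g : J × (ℝ × E) → ℂ} (h : f =ᶠ[nb F (cyl K)] g) :
    intF f =ᶠ[nb F K] intF g :=
  (ev_cyl h).mono fun _ hp => intervalIntegral.integral_congr fun t ht =>
    hp t (by rwa [uIcc_of_le zero_le_one] at ht)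

variable [FiniteDimensional ℝ E]

theorem SmF.int {f : J × (ℝ × E) → ℂ} (hf : SmF (nb F (cyl K)) f) : SmF (nb F K) (intF f) :=
  hf.smI.mono fun p ⟨_, h1, h2, h3⟩ =>
    (contDiffOn_infty.2 fun k => smI_nat h1 k ℂ (sl f p.1) h3).contDiffAt (h1.mem_nhds h2)

/-- The integral over the parameter. -/
noncomputable def int (a : Sm (nb F (cyl K))) : Sm (nb F K) := mk _ (rep_sm a).int

theorem int_mk (f : J × (ℝ × E) → ℂ) (hf : SmF (nb F (cyl K)) f) :
    int (mk f hf) = mk _ hf.int := mk_eq.2 (intF_congr (rep_mk f hf))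

theorem int_add (a b : Sm (nb F (cyl K))) : int (a + b) = int a + int b := by
  obtain ⟨f, hf, rfl⟩ := mk_surj a
  obtain ⟨g, hg, rfl⟩ := mk_surj b
  simp only [mk_add, int_mk]
  refine mk_eq.2 ((hf.smI.and hg.smI).mono fun p ⟨⟨U, _, h2, h3⟩, ⟨U', _, h2', h3'⟩⟩ => ?_)
  exact intervalIntegral.integral_add (h3.intg h2) (h3'.intg h2')

theorem pd_int (v : E) (a : Sm (nb F (cyl K))) : pd v (int a) = int (pd (0, v) a) := by
  obtain ⟨f, hf, rfl⟩ := mk_surj a
  simp only [int_mk, pd_mk]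
  refine mk_eq.2 (hf.smI.mono fun p ⟨U, h1, h2, h3⟩ => ?_)
  have : fderiv ℝ (sl (intF f) p.1) p.2 = _ := (h3.hasFDerivAt h1 h2).fderiv
  rw [pdF, this, ContinuousLinearMap.intervalIntegral_apply (h3.d2.intg h2)]
  rfl

theorem Dom0.int (hμ : Wgt μ) {a : Sm (nb F (cyl K))} (ha : Dom0 μ a) : Dom0 μ (int a) := by
  obtain ⟨k, C, hC, ha⟩ := ha
  refine dom0_mk (hf := (rep_sm a).int) k C hC (ha.mono fun j hj x hx => ?_)
  have := intervalIntegral.norm_integral_le_of_norm_le_const (a := 0) (b := 1)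
    (f := fun t => rep a (j, t, x)) (C := C * μ k j) fun t ht =>
      hj (t, x) ⟨by rw [uIoc_of_le zero_le_one] at ht; exact Ioc_subset_Icc_self ht, hx⟩
  simpa [intF] using this

theorem Dom.int (hμ : Wgt μ) {a : Sm (nb F (cyl K))} (ha : Dom μ a) : Dom μ (int a) := by
  intro w
  induction w generalizing a with
  | nil => exact ha.dom0.int hμ
  | cons v w ih =>
    simp only [pdw, pd_int]
    exact ih (ha.pd _)

theorem int_cj (a : Sm (nb F (cyl K))) : int (cj a) = cj (int a) := by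
  obtain ⟨f, hf, rfl⟩ := mk_surj a
  simp only [cj_mk, int_mk]
  refine mk_eq.2 (Eventually.of_forall fun p => ?_)
  simp only [intF, intervalIntegral, map_sub, integral_conj]

omit [FiniteDimensional ℝ E] in
/-- The projection of the cylinder. -/
theorem mp_up : Mp F (cyl K) K (aff (fun _ => 0) (ContinuousLinearMap.snd ℝ ℝ E)) :=
  mp_aff _ _ (Eventually.of_forall fun _ _ hx => by simpa using hx.2)

/-- A family as a family on the cylinder which does not depend on the parameter. -/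
noncomputable def up : Sm (nb F K) →ₐ[ℂ] Sm (nb F (cyl K)) := mp_up.pb

omit [FiniteDimensional ℝ E] in
theorem pd_up (s : ℝ) (v : E) (a : Sm (nb F K)) : pd (s, v) (up a) = up (pd v a) :=
  pd_pb_aff mp_up (s, v) a

omit [FiniteDimensional ℝ E] in
theorem Dom.up {a : Sm (nb F K)} (ha : Dom μ a) : Dom μ (up a) := dom_pb_aff mp_up ha

theorem int_up_mul (b : Sm (nb F K)) (a : Sm (nb F (cyl K))) : int (up b * a) = b * int a := by
  obtain ⟨f, hf, rfl⟩ := mk_surj a
  obtain ⟨g, hg, rfl⟩ := mk_surj b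
  simp only [up, Mp.pb_mk, mk_mul, int_mk]
  refine mk_eq.2 (Eventually.of_forall fun p => ?_)
  simp [intF, aff]

theorem int_one : int (1 : Sm (nb F (cyl K))) = 1 := by
  rw [mk_one, int_mk, mk_one]
  exact mk_eq.2 (Eventually.of_forall fun p => by simp [intF])

theorem int_neg (a : Sm (nb F (cyl K))) : int (-a) = -int a := by
  have := int_up_mul (-1) a
  simpa only [map_neg, map_one, neg_one_mul] using this

theorem int_sub (a b : Sm (nb F (cyl K))) : int (a - b) = int a - int b := by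
  rw [sub_eq_add_neg, int_add, int_neg, ← sub_eq_add_neg]

theorem int_zero : int (0 : Sm (nb F (cyl K))) = 0 := by
  have := int_up_mul (0 : Sm (nb F K)) 0
  simpa only [mul_zero, zero_mul] using this

theorem int_sum {ι : Type*} (s : Finset ι) (a : ι → Sm (nb F (cyl K))) :
    int (∑ i ∈ s, a i) = ∑ i ∈ s, int (a i) := by
  induction s using Finset.cons_induction with
  | empty => exact int_zero
  | cons i s hi ih => simp only [Finset.sum_cons, int_add, ih]

omit [FiniteDimensional ℝ E] in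
/-- The level t of the cylinder. -/
theorem mp_lev {t : ℝ} (ht : t ∈ Icc (0 : ℝ) 1) :
    Mp F K (cyl K) (aff (fun _ => (t, 0)) (ContinuousLinearMap.inr ℝ ℝ E)) :=
  mp_aff _ _ (Eventually.of_forall fun _ _ hx => by simpa [cyl] using ⟨ht, hx⟩)

noncomputable def lev0 : Sm (nb F (cyl K)) →ₐ[ℂ] Sm (nb F K) :=
  (mp_lev (left_mem_Icc.2 zero_le_one)).pb
noncomputable def lev1 : Sm (nb F (cyl K)) →ₐ[ℂ] Sm (nb F K) :=
  (mp_lev (right_mem_Icc.2 zero_le_one)).pb

omit [FiniteDimensional ℝ E] in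
theorem rep_lev0 (a : Sm (nb F (cyl K))) :
    rep (lev0 a) =ᶠ[nb F K] fun p => rep a (p.1, 0, p.2) :=
  (Mp.rep_pb _ a).trans (Eventually.of_forall fun p => by simp [aff])

omit [FiniteDimensional ℝ E] in
theorem rep_lev1 (a : Sm (nb F (cyl K))) :
    rep (lev1 a) =ᶠ[nb F K] fun p => rep a (p.1, 1, p.2) :=
  (Mp.rep_pb _ a).trans (Eventually.of_forall fun p => by simp [aff])

/-- The fundamental theorem of calculus. -/
theorem int_pd (a : Sm (nb F (cyl K))) : int (pd (1, 0) a) = lev1 a - lev0 a := by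
  refine ext_rep ?_
  filter_upwards [rep_mk _ (rep_sm (pd (1, 0) a)).int, intF_congr (rep_pd (1, 0) a),
    rep_sub (lev1 a) (lev0 a), rep_lev0 a, rep_lev1 a, (rep_sm a).smI,
    ((rep_sm a).pd (1, 0)).smI] with p h1 h2 h3 h4 h5 ⟨U, _, h6, h7⟩ ⟨U', _, h8, h9⟩
  rw [h3, Pi.sub_apply, h4, h5]
  refine h1.trans (h2.trans ?_)
  refine intervalIntegral.integral_eq_sub_of_hasDerivAt (f := fun t => rep a (p.1, t, p.2))
    (fun t ht => ?_) (h9.intg h8)
  rw [uIcc_of_le zero_le_one] at ht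
  exact HasFDerivAt.comp_hasDerivAt (l := sl (rep a) p.1) t
    ((h7 t ht _ h6).differentiableAt (by simp)).hasFDerivAt
    ((hasDerivAt_id t).prodMk (hasDerivAt_const t p.2))

omit [FiniteDimensional ℝ E] in
/-- The parameter as a family. -/
noncomputable def par : Sm (nb F (cyl K)) :=
  fn (Complex.ofRealCLM.comp (ContinuousLinearMap.fst ℝ ℝ E))
    (Eventually.of_forall fun _ => (ContinuousLinearMap.contDiff _).contDiffAt)

omit [FiniteDimensional ℝ E] in
theorem pd_par (s : ℝ) (v : E) : pd (s, v) (par : Sm (nb F (cyl K))) = algebraMap ℂ _ s :=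
  pd_clm _ _

omit [FiniteDimensional ℝ E] in
theorem rep_par : rep (par : Sm (nb F (cyl K))) =ᶠ[nb F (cyl K)] fun p => (p.2.1 : ℂ) :=
  rep_mk _ (Eventually.of_forall fun _ => (ContinuousLinearMap.contDiff
    (Complex.ofRealCLM.comp (ContinuousLinearMap.fst ℝ ℝ E))).contDiffAt)

omit [FiniteDimensional ℝ E] in
theorem bd_par : Bd (par : Sm (nb F (cyl K))) := by
  refine dom_of ⟨0, 1, zero_le_one, ?_⟩ fun v => by rw [pd_par v.1 v.2]; exact bd_alg _
  filter_upwards [ev_nb_on (rep_par (F := F) (K := K))] with j h x hx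
  rw [h x hx, w1, mul_one, Complex.norm_real, Real.norm_eq_abs, abs_of_nonneg hx.1.1]
  exact hx.1.2

omit [FiniteDimensional ℝ E] in
theorem lev0_par : lev0 (par : Sm (nb F (cyl K))) = 0 := by
  refine ext_rep ?_
  filter_upwards [Mp.rep_pb (mp_lev (left_mem_Icc.2 zero_le_one)) (par : Sm (nb F (cyl K))),
    (mp_lev (left_mem_Icc.2 zero_le_one)).ev (rep_par (F := F) (K := K)), rep_zero] with p h1 h2 h3
  rw [h3]; refine h1.trans (h2.trans ?_); simp [aff]

omit [FiniteDimensional ℝ E] in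
theorem lev1_par : lev1 (par : Sm (nb F (cyl K))) = 1 := by
  refine ext_rep ?_
  filter_upwards [Mp.rep_pb (mp_lev (right_mem_Icc.2 zero_le_one)) (par : Sm (nb F (cyl K))),
    (mp_lev (right_mem_Icc.2 zero_le_one)).ev (rep_par (F := F) (K := K)), rep_one] with p h1 h2 h3
  rw [h3]; refine h1.trans (h2.trans ?_); simp [aff]

end Vale.Agent.P354XG
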