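import Vale.Agent.P354XG.Dom

/-!
Pull back along a smooth family of maps; functions of bounded families; values at a base point.
-/

open scoped ContDiff
open Set Filter Topology

namespace Vale.Agent.P354XG

variable {J E E' : Type} [NormedAddCommGroup E] [NormedSpace ℝ E] [NormedAddCommGroup E']
  [NormedSpace ℝ E'] {F : Filter J} {K : J → Set E} {K' : J → Set E'} {X : J × E' → E}
  {μ : ℕ → J → ℝ}

theorem rep_sum {G : Filter (J × E)} [Loc G] {ι : Type*} (s : Finset ι) (f : ι → Sm G) :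
    rep (∑ i ∈ s, f i) =ᶠ[G] fun p => ∑ i ∈ s, rep (f i) p := by
  induction s using Finset.cons_induction with
  | empty => exact rep_zero
  | cons i s hi ih =>
    simp only [Finset.sum_cons]
    filter_upwards [rep_add (f i) (∑ i ∈ s, f i), ih] with p h1 h2
    rw [h1, Pi.add_apply, h2]

/-- A smooth family of maps which sends K' j into K j. -/
structure Mp (F : Filter J) (K' : J → Set E') (K : J → Set E) (X : J × E' → E) : Prop where
  intro ::
  sm : ∀ᶠ p in nb F K', ContDiffAt ℝ ∞ (fun y => X (p.1, y)) p.2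
  maps : ∀ᶠ j in F, ∀ x ∈ K' j, X (j, x) ∈ K j

theorem Mp.ev (h : Mp F K' K X) {P : J × E → Prop} (hP : ∀ᶠ p in nb F K, P p) :
    ∀ᶠ p in nb F K', P (p.1, X p) := by
  rw [ev_nb] at hP ⊢
  filter_upwards [hP, h.maps, ev_nb_on h.sm] with j h1 h2 h3 x hx
  exact (h3 x hx).continuousAt.eventually (h1 _ (h2 x hx))

theorem Mp.smF (h : Mp F K' K X) {f : J × E → ℂ} (hf : SmF (nb F K) f) :
    SmF (nb F K') fun p => f (p.1, X p) :=
  ((h.ev hf).and h.sm).mono fun p hp => ContDiffAt.comp (g := sl f p.1) p.2 hp.1 hp.2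

noncomputable def Mp.pb0 (h : Mp F K' K X) (a : Sm (nb F K)) : Sm (nb F K') :=
  mk _ (h.smF (rep_sm a))

theorem Mp.pb0_mk (h : Mp F K' K X) (f : J × E → ℂ) (hf : SmF (nb F K) f) :
    h.pb0 (mk f hf) = mk _ (h.smF hf) := mk_eq.2 (h.ev (rep_mk f hf))

/-- The pull back. -/
noncomputable def Mp.pb (h : Mp F K' K X) : Sm (nb F K) →ₐ[ℂ] Sm (nb F K') where
  toFun := h.pb0
  map_one' := by rw [mk_one, h.pb0_mk]; rfl
  map_zero' := by rw [mk_zero, h.pb0_mk]; rfl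
  map_add' a b := by
    obtain ⟨f, hf, rfl⟩ := mk_surj a
    obtain ⟨g, hg, rfl⟩ := mk_surj b
    simp only [mk_add, h.pb0_mk]; rfl
  map_mul' a b := by
    obtain ⟨f, hf, rfl⟩ := mk_surj a
    obtain ⟨g, hg, rfl⟩ := mk_surj b
    simp only [mk_mul, h.pb0_mk]; rfl
  commutes' z := by rw [mk_alg, h.pb0_mk]; rfl

namespace Mp
variable (h : Mp F K' K X)

theorem pb_mk (f : J × E → ℂ) (hf : SmF (nb F K) f) :
    h.pb (mk f hf) = mk _ (h.smF hf) := h.pb0_mk f hf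

theorem rep_pb (a : Sm (nb F K)) : rep (h.pb a) =ᶠ[nb F K'] fun p => rep a (p.1, X p) :=
  rep_mk _ (h.smF (rep_sm a))

theorem pb_cj (a : Sm (nb F K)) : h.pb (cj a) = cj (h.pb a) := by
  obtain ⟨f, hf, rfl⟩ := mk_surj a
  simp only [cj_mk, pb_mk]

theorem pb_cst (c : J → ℂ) : h.pb (cst c) = cst c := h.pb_mk _ _

theorem dom0 {a : Sm (nb F K)} (ha : Dom0 μ a) : Dom0 μ (h.pb a) := by
  obtain ⟨k, C, hC, ha⟩ := ha
  refine dom0_mk (hf := h.smF (rep_sm a)) k C hC ?_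
  filter_upwards [ha, h.maps] with j h1 h2 x hx using h1 _ (h2 x hx)

theorem low {a : Sm (nb F K)} (ha : Low a) : Low (h.pb a) := by
  obtain ⟨c, hc, ha⟩ := ha
  refine ⟨c, hc, ?_⟩
  filter_upwards [ha, h.maps, ev_nb_on (h.rep_pb a)] with j h1 h2 h3 x hx
  rw [h3 x hx]; exact h1 _ (h2 x hx)

include h in
theorem sm_co (l : E →L[ℝ] ℂ) : SmF (nb F K') fun p => l (X p) :=
  h.sm.mono fun _ hp => l.contDiff.contDiffAt.comp _ hp

/-- A linear coordinate of the map. -/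
noncomputable def co (l : E →L[ℝ] ℂ) : Sm (nb F K') := mk (fun p => l (X p)) (h.sm_co l)

theorem rep_pd_co (l : E →L[ℝ] ℂ) (v : E') : rep (pd v (h.co l)) =ᶠ[nb F K']
    fun p => l (fderiv ℝ (fun y => X (p.1, y)) p.2 v) := by
  rw [co, pd_mk]
  filter_upwards [rep_mk _ ((h.sm_co l).pd v), h.sm] with p h1 h3
  have : fderiv ℝ (sl (fun p => l (X p)) p.1) p.2 = _ :=
    (l.hasFDerivAt.comp p.2 (h3.differentiableAt (by simp)).hasFDerivAt).fderiv
  rw [h1, pdF, this]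
  rfl

/-- The derivatives of the map are bounded. -/
def Tame : Prop := ∀ (l : E →L[ℝ] ℂ) (v : E'), Bd (pd v (h.co l))

end Mp

/-- The coordinates of a basis, with complex values. -/
noncomputable def bco [FiniteDimensional ℝ E] {ι : Type} (b : Module.Basis ι ℝ E) (i : ι) :
    E →L[ℝ] ℂ := Complex.ofRealCLM.comp (LinearMap.toContinuousLinearMap (b.coord i))

theorem bco_sum [FiniteDimensional ℝ E] {ι : Type} [Fintype ι] (b : Module.Basis ι ℝ E)
    (T : E →L[ℝ] ℂ) (w : E) : T w = ∑ i, bco b i w * T (b i) := by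
  conv_lhs => rw [← b.sum_repr w, map_sum]
  refine Finset.sum_congr rfl fun i _ => ?_
  rw [map_smul]
  simp [bco]

namespace Mp
variable (h : Mp F K' K X) [FiniteDimensional ℝ E]

/-- The chain rule. -/
theorem pd_pb {ι : Type} [Fintype ι] (b : Module.Basis ι ℝ E) (v : E') (a : Sm (nb F K)) :
    pd v (h.pb a) = ∑ i, pd v (h.co (bco b i)) * h.pb (pd (b i) a) := by
  obtain ⟨f, hf, rfl⟩ := mk_surj a
  refine ext_rep ?_
  refine EventuallyEq.trans ?_ (rep_sum _ _).symm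
  have e : ∀ᶠ p in nb F K', ∀ i, rep (pd v (h.co (bco b i)) * h.pb (pd (b i) (mk f hf))) p =
      bco b i (fderiv ℝ (fun y => X (p.1, y)) p.2 v) * fderiv ℝ (sl f p.1) (X p) (b i) := by
    refine eventually_all.2 fun i => ?_
    rw [pd_mk, pb_mk]
    filter_upwards [rep_mul (pd v (h.co (bco b i))) (mk _ (h.smF (hf.pd (b i)))),
      h.rep_pd_co (bco b i) v, rep_mk _ (h.smF (hf.pd (b i)))] with p h1 h2 h3
    rw [h1, Pi.mul_apply, h2, h3]
    rfl
  rw [pb_mk, pd_mk]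
  filter_upwards [rep_mk _ ((h.smF hf).pd v), h.sm, h.ev hf.diff, e] with p h1 h2 h3 h4
  simp only [h4]
  rw [h1, ← bco_sum]
  have : fderiv ℝ (sl (fun p => f (p.1, X p)) p.1) p.2 = _ :=
    (HasFDerivAt.comp (g := sl f p.1) p.2 h3.hasFDerivAt
      (h2.differentiableAt (by simp)).hasFDerivAt).fderiv
  rw [pdF, this]
  rfl

/-- The pull back keeps the classes Dom μ. -/
theorem dom (ht : h.Tame) (hμ : Wgt μ) {a : Sm (nb F K)} (ha : Dom μ a) : Dom μ (h.pb a) := by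
  let S : Set (Sm (nb F K')) := {y | ∃ c a, Bd c ∧ Dom μ a ∧ y = c * h.pb a}
  have key : ∀ y ∈ AddSubmonoid.closure S, Dom0 μ y ∧ ∀ v, pd v y ∈ AddSubmonoid.closure S := by
    intro y hy
    induction hy using AddSubmonoid.closure_induction with
    | mem x hx =>
      obtain ⟨c, a, hc, ha, rfl⟩ := hx
      refine ⟨Dom0.bmul hμ hc.dom0 (h.dom0 ha.dom0), fun v => ?_⟩
      rw [D_mul, h.pd_pb (Module.finBasis ℝ E), Finset.mul_sum]
      refine add_mem (sum_mem fun i _ => AddSubmonoid.subset_closure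
        ⟨_, _, Dom.bmul wgt_one hc (ht _ v), ha.pd _, (mul_assoc _ _ _).symm⟩)
        (AddSubmonoid.subset_closure ⟨_, _, hc.pd v, ha, mul_comm _ _⟩)
    | zero => exact ⟨dom0_zero hμ, fun v => by rw [D_zero]; exact zero_mem _⟩
    | add x y hx hy h1 h2 =>
      exact ⟨h1.1.add hμ h2.1, fun v => by rw [D_add]; exact add_mem (h1.2 v) (h2.2 v)⟩
  refine dom_of_stable (AddSubmonoid.closure S : Set _) (fun y hy => (key y hy).1)
    (fun y hy => (key y hy).2) _ (AddSubmonoid.subset_closure ?_)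
  refine ⟨1, a, ?_, ha, (one_mul _).symm⟩
  simpa only [map_one] using bd_alg (F := F) (K := K') 1

theorem co_sum {ι : Type} [Fintype ι] (b : Module.Basis ι ℝ E) (l : E →L[ℝ] ℂ) :
    h.co l = ∑ i, h.co (bco b i) * algebraMap ℂ _ (l (b i)) := by
  refine ext_rep (EventuallyEq.trans ?_ (rep_sum _ _).symm)
  have e : ∀ᶠ p in nb F K', ∀ i, rep (h.co (bco b i) * algebraMap ℂ _ (l (b i))) p =
      bco b i (X p) * l (b i) := by
    refine eventually_all.2 fun i => ?_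
    filter_upwards [rep_mul (h.co (bco b i)) (algebraMap ℂ _ (l (b i))),
      rep_alg (G := nb F K') (l (b i)), rep_mk _ (h.sm_co (bco b i))] with p h2 h3 h4
    rw [h2, Pi.mul_apply, h3, ← h4]
    rfl
  filter_upwards [e, rep_mk _ (h.sm_co l)] with p h1 h2
  simp only [h1]
  exact h2.trans (bco_sum b l _)

theorem tame_of_basis {ι : Type} [Fintype ι] (b : Module.Basis ι ℝ E)
    (hb : ∀ i v, Bd (pd v (h.co (bco b i)))) : h.Tame := by
  intro l v
  rw [h.co_sum b l, map_sum]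
  refine dom_sum wgt_one _ fun i _ => ?_
  rw [D_mul, D_alg, mul_zero, zero_add]
  exact Dom.bmul wgt_one (bd_alg _) (hb i v)

end Mp

/-- An affine map whose linear part does not depend on j. -/
def aff (x0 : J → E) (L : E' →L[ℝ] E) (p : J × E') : E := x0 p.1 + L p.2

theorem mp_aff (x0 : J → E) (L : E' →L[ℝ] E) (hm : ∀ᶠ j in F, ∀ x ∈ K' j, x0 j + L x ∈ K j) :
    Mp F K' K (aff x0 L) :=
  ⟨Eventually.of_forall fun p => (contDiffAt_const (c := x0 p.1)).add L.contDiff.contDiffAt, hm⟩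

theorem pd_pb_aff {x0 : J → E} {L : E' →L[ℝ] E} (h : Mp F K' K (aff x0 L))
    (v : E') (a : Sm (nb F K)) : pd v (h.pb a) = h.pb (pd (L v) a) := by
  obtain ⟨f, hf, rfl⟩ := mk_surj a
  simp only [Mp.pb_mk, pd_mk]
  refine mk_eq.2 ((h.ev hf.diff).mono fun p hp => ?_)
  have : fderiv ℝ (sl (fun p : J × E' => f (p.1, aff x0 L p)) p.1) p.2 = _ :=
    (HasFDerivAt.comp (g := sl f p.1) p.2 hp.hasFDerivAt
      (L.hasFDerivAt.const_add (x0 p.1))).fderiv
  simp only [pdF, this]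
  rfl

theorem dom_pb_aff {x0 : J → E} {L : E' →L[ℝ] E} (h : Mp F K' K (aff x0 L))
    {a : Sm (nb F K)} (ha : Dom μ a) : Dom μ (h.pb a) := by
  intro w
  induction w generalizing a with
  | nil => exact h.dom0 ha.dom0
  | cons v w ih =>
    simp only [pdw, pd_pb_aff]
    exact ih (ha.pd _)

/-- The restriction to smaller sets. -/
theorem mp_res {K1 : J → Set E} (hs : ∀ᶠ j in F, K1 j ⊆ K j) :
    Mp F K1 K (aff (fun _ => 0) (ContinuousLinearMap.id ℝ E)) :=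
  mp_aff _ _ (hs.mono fun _ h x hx => by simpa using h hx)

noncomputable def res {K1 : J → Set E} (hs : ∀ᶠ j in F, K1 j ⊆ K j) :
    Sm (nb F K) →ₐ[ℂ] Sm (nb F K1) := (mp_res hs).pb

theorem pd_res {K1 : J → Set E} (hs : ∀ᶠ j in F, K1 j ⊆ K j) (v : E) (a : Sm (nb F K)) :
    pd v (res hs a) = res hs (pd v a) := pd_pb_aff (mp_res hs) v a

theorem Dom.res {K1 : J → Set E} (hs : ∀ᶠ j in F, K1 j ⊆ K j) {a : Sm (nb F K)}
    (ha : Dom μ a) : Dom μ (res hs a) := dom_pb_aff (mp_res hs) ha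

theorem res_cj {K1 : J → Set E} (hs : ∀ᶠ j in F, K1 j ⊆ K j) (a : Sm (nb F K)) :
    res hs (cj a) = cj (res hs a) := (mp_res hs).pb_cj a

theorem rep_res {K1 : J → Set E} (hs : ∀ᶠ j in F, K1 j ⊆ K j) (a : Sm (nb F K)) :
    rep (res hs a) =ᶠ[nb F K1] rep a :=
  ((mp_res hs).rep_pb a).trans (Eventually.of_forall fun p => by simp [aff])

theorem res_mk {K1 : J → Set E} (hs : ∀ᶠ j in F, K1 j ⊆ K j) (f : J × E → ℂ)
    (hf : SmF (nb F K) f) (hf' : SmF (nb F K1) f) : res hs (mk f hf) = mk f hf' :=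
  ((mp_res hs).pb_mk f hf).trans (mk_eq.2 (Eventually.of_forall fun p => by simp [aff]))

/-- The value at a base point, as a family on any sets K'. -/
theorem mp_ev (x0 : J → E) (hx : ∀ᶠ j in F, x0 j ∈ K j) : Mp F K' K (aff x0 (0 : E' →L[ℝ] E)) :=
  mp_aff _ _ (hx.mono fun _ h x _ => by simpa using h)

noncomputable def ev0 (x0 : J → E) (hx : ∀ᶠ j in F, x0 j ∈ K j) :
    Sm (nb F K) →ₐ[ℂ] Sm (nb F K') := (mp_ev x0 hx).pb

theorem ev0_eq (x0 : J → E) (hx : ∀ᶠ j in F, x0 j ∈ K j) (a : Sm (nb F K)) :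
    (ev0 x0 hx a : Sm (nb F K')) = cst fun j => rep a (j, x0 j) := by
  refine ext_rep (((mp_ev x0 hx).rep_pb a).trans (EventuallyEq.trans ?_
    (rep_mk _ (smF_const fun j => rep a (j, x0 j))).symm))
  exact Eventually.of_forall fun p => by simp [aff]

theorem pd_ev0 (x0 : J → E) (hx : ∀ᶠ j in F, x0 j ∈ K j) (v : E') (a : Sm (nb F K)) :
    pd v (ev0 x0 hx a : Sm (nb F K')) = 0 := by rw [ev0_eq, pd_cst]

theorem Dom0.ev0 (hμ : Wgt μ) (x0 : J → E) (hx : ∀ᶠ j in F, x0 j ∈ K j) {a : Sm (nb F K)}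
    (ha : Dom0 μ a) : Dom μ (ev0 x0 hx a : Sm (nb F K')) :=
  dom_of ((mp_ev x0 hx).dom0 ha) fun v => by rw [pd_ev0]; exact dom_zero hμ

theorem ev0_cj (x0 : J → E) (hx : ∀ᶠ j in F, x0 j ∈ K j) (a : Sm (nb F K)) :
    (ev0 x0 hx (cj a) : Sm (nb F K')) = cj (ev0 x0 hx a) := Mp.pb_cj _ a

theorem pd_fn {G : Filter (J × E)} [Loc G] (v : E) (φ : E → ℂ)
    (h : ∀ᶠ p in G, ContDiffAt ℝ ∞ φ p.2)
    (h' : ∀ᶠ p in G, ContDiffAt ℝ ∞ (fun y => fderiv ℝ φ y v) p.2) :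
    pd v (fn φ h : Sm G) = fn (fun y => fderiv ℝ φ y v) h' := pd_mk v (fun p => φ p.2) h

/-- A fixed function which is smooth near a compact set C containing all K j is bounded. -/
theorem bd_fn {C : Set E} (hC : IsCompact C) (hK : ∀ᶠ j in F, K j ⊆ C) {O : Set E}
    (hO : IsOpen O) (hCO : C ⊆ O) {φ : E → ℂ} (hφ : ContDiffOn ℝ ∞ φ O) :
    ∃ h, Bd (fn φ h : Sm (nb F K)) := by
  have ev : ∀ᶠ p in nb F K, p.2 ∈ O :=
    ev_nb.2 (hK.mono fun j h x hx => hO.mem_nhds (hCO (h hx)))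
  have sm : ∀ ψ : E → ℂ, ContDiffOn ℝ ∞ ψ O → ∀ᶠ p in nb F K, ContDiffAt ℝ ∞ ψ p.2 :=
    fun ψ hψ => ev.mono fun p hp => hψ.contDiffAt (hO.mem_nhds hp)
  refine ⟨sm φ hφ, dom_of_stable {a | ∃ ψ hψ, a = fn ψ (sm ψ hψ)} ?_ ?_ _ ⟨φ, hφ, rfl⟩⟩
  · rintro _ ⟨ψ, hψ, rfl⟩
    obtain ⟨B, hB⟩ := hC.exists_bound_of_continuousOn (hψ.continuousOn.mono hCO)
    refine dom0_mk (f := fun p => ψ p.2) (hf := sm ψ hψ) 0 (max B 0) (le_max_right _ _)
      (hK.mono fun j h x hx => ?_)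
    rw [w1, mul_one]
    exact (hB x (h hx)).trans (le_max_left _ _)
  · rintro _ ⟨ψ, hψ, rfl⟩ v
    have : ContDiffOn ℝ ∞ (fun y => fderiv ℝ ψ y v) O :=
      (hψ.fderiv_of_isOpen (m := ∞) hO (by simp)).clm_apply contDiffOn_const
    exact ⟨_, this, pd_fn v ψ _ _⟩

end Vale.Agent.P354XG
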